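import Vale.Agent.P218UY.Ode
import Mathlib.Analysis.InnerProductSpace.Calculus
import Mathlib.Analysis.Calculus.Deriv.MeanValue
import Mathlib.Analysis.Calculus.InverseFunctionTheorem.Deriv

/-! An orbit in a compact one-dimensional set cannot have only one end at the rest point. -/

open Set Metric Filter Topology
open scoped RealInnerProductSpace

namespace Vale.Agent.P218UY

lemma back_lt {h h' r : ℝ → ℝ} {R : ℝ} (hh : ∀ t, HasDerivAt h (h' t) t) (hr : Continuous r)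
    (h1 : ∀ t, r t < R → 0 < h' t ∧ r t ≤ h t) {t₁ : ℝ} (h2 : r t₁ < R) (h3 : h t₁ < R) {t : ℝ}
    (ht : t < t₁) : h t < h t₁ := by
  have mono : ∀ s, (∀ u ∈ Ioo s t₁, r u < R) → StrictMonoOn h (Icc s t₁) := fun s hs =>
    strictMonoOn_of_deriv_pos (convex_Icc _ _) (fun u _ => (hh u).continuousAt.continuousWithinAt)
      fun u hu => by
        rw [interior_Icc] at hu
        rw [(hh u).deriv]
        exact (h1 u (hs u hu)).1
  refine mono t (fun u hu => ?_) (left_mem_Icc.2 ht.le) (right_mem_Icc.2 ht.le) ht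
  by_contra hc
  have hK : IsCompact (Icc t t₁ ∩ {s | R ≤ r s}) :=
    isCompact_Icc.inter_right (isClosed_le continuous_const hr)
  obtain ⟨s, hs, hm⟩ := hK.exists_isGreatest ⟨u, Ioo_subset_Icc_self hu, not_lt.1 hc⟩
  have h4 : s < t₁ := lt_of_le_of_ne hs.1.2 fun e => absurd hs.2 (by rw [e]; exact not_le.2 h2)
  have h5 : ∀ u ∈ Ioo s t₁, r u < R := fun u hu => by
    by_contra h6
    exact absurd (hm ⟨⟨hs.1.1.trans hu.1.le, hu.2.le⟩, not_lt.1 h6⟩) (not_le.2 hu.1)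
  have h6 : closure (Ioo s t₁) ⊆ {u | r u ≤ h t₁} :=
    closure_minimal (fun u hu => (h1 u (h5 u hu)).2.trans
      (mono s h5 (Ioo_subset_Icc_self hu) (right_mem_Icc.2 h4.le) hu.2).le)
      (isClosed_le hr continuous_const)
  have h7 : r s ≤ h t₁ := h6 (by rw [closure_Ioo h4.ne]; exact left_mem_Icc.2 h4.le)
  exact absurd (hs.2.trans h7) (not_le.2 h3)

variable {E : Type*} [NormedAddCommGroup E] [InnerProductSpace ℝ E] {v : E → E}

/-- an orbit covers a neighbourhood of a regular point in a one-dimensional set -/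
lemma cover (hv : Continuous v) {c : ℝ → E} (hc : ∀ t, HasDerivAt c (v (c t)) t) {e : E}
    (he : ⟪e, v (c 0)⟫ ≠ 0) {O : Set E} (hO : O ∈ 𝓝 (c 0)) :
    ∀ᶠ z in 𝓝 (c 0), ∃ s, |s| < 1 / 2 ∧ c s ∈ O ∧ ⟪e, c s⟫ = ⟪e, z⟫ := by
  have c0 : Continuous c := continuous_iff_continuousAt.2 fun t => (hc t).continuousAt
  have h1 : HasStrictDerivAt (fun s => ⟪e, c s⟫) ⟪e, v (c 0)⟫ 0 :=
    hasStrictDerivAt_of_hasDerivAt_of_continuousAt (f' := fun s => ⟪e, v (c s)⟫)
      (Eventually.of_forall fun s => by simpa using (hasDerivAt_const s e).inner ℝ (hc s))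
      (by fun_prop)
  have h2 : {s | |s| < 1 / 2 ∧ c s ∈ O} ∈ 𝓝 (0 : ℝ) :=
    inter_mem (continuous_abs.continuousAt.eventually (gt_mem_nhds (by simp))) (c0.continuousAt hO)
  have h3 := image_mem_map (m := fun s => ⟪e, c s⟫) h2
  rw [h1.map_nhds_eq he] at h3
  have h4 : ContinuousAt (fun z => ⟪e, z⟫) (c 0) := by fun_prop
  filter_upwards [h4 h3] with z ⟨s, hs, e'⟩ using ⟨s, hs.1, hs.2, e'⟩

variable [ProperSpace E]

theorem no_end (hv : ContDiff ℝ 1 v) {L : Set E} (hL : IsCompact L) {x e : E} {c : ℝ → E}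
    (hc : ∀ t, HasDerivAt c (v (c t)) t) (hmem : ∀ t, c t ∈ L) {R : ℝ}
    (h1 : ∀ t, ‖c t - x‖ < R → 0 < ⟪e, v (c t)⟫ ∧ ‖c t - x‖ ≤ ⟪e, c t - x⟫)
    (h2 : ‖c 0 - x‖ < R) (h3 : ⟪e, c 0 - x⟫ < R) (hne : c 0 ≠ x)
    (hbox : ∀ y ∈ L, y ≠ x → ∃ d : ℝ → E, (∀ t, HasDerivAt d (v (d t)) t) ∧
      ∀ᶠ z in 𝓝 y, z ∈ L → ∃ s, |s| < 1 / 2 ∧ d s = z) : False := by
  have c0 : Continuous c := continuous_iff_continuousAt.2 fun t => (hc t).continuousAt
  have key : ∀ t, 0 < t → ‖c t - x‖ < R → ⟪e, c t - x⟫ < R → ⟪e, c 0 - x⟫ < ⟪e, c t - x⟫ :=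
    fun t ht a b => back_lt (h := fun t => ⟪e, c t - x⟫) (r := fun t => ‖c t - x‖)
      (fun t => by simpa using (hasDerivAt_const t e).inner ℝ ((hc t).sub_const x))
      (by fun_prop) h1 a b ht
  obtain ⟨y, hy, k, hk, ht⟩ := hL.tendsto_subseq fun n : ℕ => hmem (n + 1)
  by_cases e1 : y = x
  · have p1 : 0 < ‖c 0 - x‖ := norm_pos_iff.2 (sub_ne_zero.2 hne)
    have p2 := p1.trans_le (h1 0 h2).2
    have a1 : ContinuousAt (fun z => ‖z - x‖) y := by fun_prop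
    have a2 : ContinuousAt (fun z => ⟪e, z - x⟫) y := by fun_prop
    have b1 := (a1.tendsto.comp ht).eventually (gt_mem_nhds (a := R) (by simpa [e1] using p1.trans h2))
    have b2 := (a2.tendsto.comp ht).eventually
      (gt_mem_nhds (a := ⟪e, c 0 - x⟫) (by simpa [e1] using p2))
    obtain ⟨n, n1, n2⟩ := (b1.and b2).exists
    exact lt_asymm n2 (key _ (by positivity) n1 (n2.trans h3))
  · obtain ⟨d, hd, hb⟩ := hbox y hy e1
    obtain ⟨n, hn⟩ := eventually_atTop.1 (ht.eventually hb)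
    have sh : ∀ m ≥ n, ∃ s, |s| < 1 / 2 ∧ ∀ t, c (t + (k m + 1)) = d (t + s) := fun m hm => by
      obtain ⟨s, hs, e2⟩ := hn m hm (hmem _)
      refine ⟨s, hs, congrFun (unique_global hv (t₀ := 0) (fun t => (hc _).comp_add_const t _)
        (fun t => (hd _).comp_add_const t _) ?_)⟩
      simpa using e2.symm
    obtain ⟨s, hs, e2⟩ := sh n le_rfl
    obtain ⟨s', hs', e3⟩ := sh (n + 1) (Nat.le_succ n)
    have p1 : (k n : ℝ) + 1 ≤ k (n + 1) := by exact_mod_cast hk (Nat.lt_succ_self n)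
    have p2 : c (s - (k n + 1) - s' + (k (n + 1) + 1)) = c 0 := by
      rw [e3, ← neg_add_cancel ((k n : ℝ) + 1), e2]
      congr 1
      ring
    have := key _ (by linarith [abs_lt.1 hs, abs_lt.1 hs']) (p2 ▸ h2) (p2 ▸ h3)
    rw [p2] at this
    exact lt_irrefl _ this

end Vale.Agent.P218UY
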