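import Vale.Agent.P218UY.Geo
import Vale.Agent.P218UY.Dyn

/-! The Euler characteristic of a superlevel set is at most the number of level curves. -/

open Set Filter Topology Metric
open scoped RealInnerProductSpace NNReal

namespace Vale.Agent.P218UY

open Vale.Agent.P218UA Vale.Agent.P218UL Vale.Agent.P218UE

lemma cone {n e₁ e₂ x : E3} (h : Fr n e₁ e₂) {w k : E3 → ℝ} {k' : E3 →L[ℝ] ℝ}
    (hw : HasFDerivAt w (innerSL ℝ n) x) (hk : HasFDerivAt k k' x) (k0 : k x = 0)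
    (h1 : 0 < k' e₁) (h2 : 0 < k' e₂) :
    ∀ᶠ y in 𝓝 x, w y = w x → y ≠ x → 0 ≤ ⟪e₁, y - x⟫ → 0 ≤ ⟪e₂, y - x⟫ →
      0 < k y ∧ ‖y - x‖ ≤ 2 * (⟪e₁, y - x⟫ + ⟪e₂, y - x⟫) := by
  set m := min (k' e₁) (k' e₂) with hm
  have m0 : 0 < m := lt_min h1 h2
  set c := min (1 / 2) (m / (4 * (1 + |k' n|))) with hc
  have c0 : 0 < c := lt_min (by norm_num) (by positivity)
  have c1 : c ≤ 1 / 2 := min_le_left _ _
  have c2 : c * (4 * (1 + |k' n|)) ≤ m := (le_div_iff₀ (by positivity)).1 (min_le_right _ _)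
  filter_upwards [hw.isLittleO.def c0, hk.isLittleO.def c0] with y a1 a2 e hne p1 p2
  have N0 : 0 < ‖y - x‖ := norm_pos_iff.2 (sub_ne_zero.2 hne)
  rw [e, sub_self, zero_sub, norm_neg, innerSL_apply_apply, Real.norm_eq_abs] at a1
  rw [k0, sub_zero, Real.norm_eq_abs] at a2
  have b1 := h.normSq (y - x)
  have b2 : k' (y - x) = ⟪e₁, y - x⟫ * k' e₁ + ⟪e₂, y - x⟫ * k' e₂ + ⟪n, y - x⟫ * k' n := by
    conv_lhs => rw [h.expand (y - x)]
    simp only [map_add, map_smul, smul_eq_mul]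
  generalize ⟪e₁, y - x⟫ = a at *
  generalize ⟪e₂, y - x⟫ = b at *
  generalize ⟪n, y - x⟫ = d at *
  generalize ‖y - x‖ = N at *
  have b3 : N ≤ 2 * (a + b) := by
    by_contra h3
    have h4 : |d| ≤ N / 2 := by nlinarith
    have h5 : d ^ 2 ≤ (N / 2) ^ 2 := sq_le_sq' (abs_le.1 h4).1 (abs_le.1 h4).2
    nlinarith [mul_nonneg p1 p2, not_le.1 h3]
  refine ⟨?_, b3⟩
  have b4 : |d * k' n| ≤ c * N * |k' n| := by
    rw [abs_mul]
    exact mul_le_mul_of_nonneg_right a1 (abs_nonneg _)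
  nlinarith [abs_le.1 b4, abs_le.1 a2, mul_le_mul_of_nonneg_left (min_le_left (k' e₁) (k' e₂)) p1,
    mul_le_mul_of_nonneg_left (min_le_right (k' e₁) (k' e₂)) p2,
    mul_le_mul_of_nonneg_right c2 N0.le, mul_le_mul_of_nonneg_left b3 m0.le, mul_pos m0 N0]

variable {w f : E3 → ℝ}

/-- a bounded multiple of the rotated gradient -/
noncomputable def vf (w f : E3 → ℝ) (y : E3) : E3 := (1 + ‖rot w f y‖ ^ 2)⁻¹ • rot w f y

lemma contDiff_vf (hw : ContDiff ℝ 2 w) (hf : ContDiff ℝ 2 f) : ContDiff ℝ 1 (vf w f) := by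
  have h : ContDiff ℝ 1 (rot w f) :=
    contDiff_cr (contDiff_grad hw (by norm_num)) (contDiff_grad hf (by norm_num))
  exact ((contDiff_const.add (h.norm_sq ℝ)).inv fun y => by positivity).smul h

lemma norm_vf (y : E3) : ‖vf w f y‖ ≤ (1 : ℝ≥0) := by
  rw [vf, norm_smul, norm_inv, Real.norm_of_nonneg (by positivity), NNReal.coe_one,
    inv_mul_le_iff₀ (by positivity)]
  nlinarith [sq_nonneg (‖rot w f y‖ - 1)]

lemma const_along {g : E3 → ℝ} {v : E3 → E3} (hg : Differentiable ℝ g)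
    (h : ∀ y, ⟪gradient g y, v y⟫ = 0) {c : ℝ → E3} (hc : ∀ t, HasDerivAt c (v (c t)) t) (t : ℝ) :
    g (c t) = g (c 0) := by
  have h1 : ∀ s, HasDerivAt (fun s => g (c s)) 0 s := fun s =>
    ((hasFDerivAt_innerSL (hg (c s))).comp_hasDerivAt s (hc s)).congr_deriv (h _)
  exact is_const_of_deriv_eq_zero (fun s => (h1 s).differentiableAt) (fun s => (h1 s).deriv) t 0

lemma exists_orbit (hw : ContDiff ℝ 2 w) (hf : ContDiff ℝ 2 f) (y : E3) : ∃ c : ℝ → E3, c 0 = y ∧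
    (∀ t, HasDerivAt c (vf w f (c t)) t) ∧ ∀ t, w (c t) = w y ∧ f (c t) = f y := by
  obtain ⟨c, h0, hc⟩ := exists_global (contDiff_vf hw hf) norm_vf y
  refine ⟨c, h0, hc, fun t => ⟨?_, ?_⟩⟩
  · rw [← h0]
    refine const_along (hw.differentiable two_ne_zero) (fun y => ?_) hc t
    rw [vf, real_inner_smul_right, rot, inner_cr_left, mul_zero]
  · rw [← h0]
    refine const_along (hf.differentiable two_ne_zero) (fun y => ?_) hc t
    rw [vf, real_inner_smul_right, rot, inner_cr_right, mul_zero]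

/-- the flow box at a regular point -/
lemma flow_box (hw : IsSurf w) (hf : ContDiff ℝ 2 f) {y : E3} (h : rot w f y ≠ 0) :
    ∃ d : ℝ → E3, (∀ t, HasDerivAt d (vf w f (d t)) t) ∧
      ∀ᶠ z in 𝓝 y, w z = w y → f z = f y → ∃ s, |s| < 1 / 2 ∧ d s = z := by
  have hw2 : ContDiff ℝ 2 w := hw.smooth.of_le two_le
  obtain ⟨d, rfl, hd, hl⟩ := exists_orbit hw2 hf y
  obtain ⟨G, h1, h2⟩ := reg_amb hw hf h
  have h3 : ⟪rot w f (d 0), vf w f (d 0)⟫ ≠ 0 := by
    have := norm_pos_iff.2 h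
    rw [vf, real_inner_smul_right, real_inner_self_eq_norm_sq]
    positivity
  refine ⟨d, hd, ?_⟩
  filter_upwards [cover (contDiff_vf hw2 hf).continuous hd h3 (G.open_source.mem_nhds h2),
    G.open_source.mem_nhds h2] with z ⟨s, a1, a2, a3⟩ hz b1 b2
  exact ⟨s, a1, G.injOn a2 hz (by rw [h1, h1, a3, (hl s).1, (hl s).2, b1, b2])⟩

/-- the restriction to the surface -/
def rs (w f : E3 → ℝ) (y : {y | w y = 0}) : ℝ := f y

/-- the local data at a saddle -/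
structure Sad (w f : E3 → ℝ) (x : {y | w y = 0}) (e₁ e₂ : E3) : Prop where
  fr : Fr (gradient w x) e₁ e₂
  off : ⟪e₁, hM w f x e₂⟫ = 0
  pos : 0 < ⟪e₁, hM w f x e₁⟫
  neg : ⟪e₂, hM w f x e₂⟫ < 0
  up : Two (rs w f) (fun y => ⟪e₁, y.1 - x⟫) x univ
  dn : Two (-rs w f) (fun y => ⟪e₂, y.1 - x⟫) x univ
  freq : ∃ᶠ y in 𝓝 x, rs w f y = rs w f x ∧ 0 < ⟪e₁, y.1 - x⟫ ∧ 0 < ⟪e₂, y.1 - x⟫

lemma pk_of_min {X : Type*} [TopologicalSpace X] {g : X → ℝ} {F : ℝ × ℝ → ℝ} {x : X}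
    {e : OpenPartialHomeomorph X (ℝ × ℝ)} (hx : x ∈ e.source) (h0 : e x = 0)
    (hF : ∀ z ∈ e.source, F (e z) = g z) (h : ∀ᶠ p in 𝓝 (0 : ℝ × ℝ), p ≠ 0 → F 0 < F p) :
    Pk (-g) x := by
  have h1 : ∀ᶠ z in 𝓝 x, (-g) z ≤ (-g) x := by
    have c : Tendsto e (𝓝 x) (𝓝 0) := h0 ▸ e.continuousAt hx
    filter_upwards [c h, e.open_source.mem_nhds hx] with z hz hz'
    refine neg_le_neg ?_
    rw [← hF x hx, ← hF z hz', h0]
    by_cases k : e z = 0
    · rw [k]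
    · exact (hz k).le
  refine ⟨h1, not_mer_of_max h1, ?_⟩
  rw [neg_neg]
  exact (One.transfer hx hF
    (h0 ▸ one_of_min h (h0 ▸ e.open_target.mem_nhds (e.map_source hx)))).not_mer

lemma crit_cases (hw : IsSurf w) (hf : ContDiff ℝ 2 f) (x : {y | w y = 0}) (hx : gM w f x = 0)
    (hd : detM w f x ≠ 0) :
    Pk (rs w f) x ∨ Pk (-rs w f) x ∨ detM w f x < 0 ∧ ∃ e₁ e₂, Sad w f x e₁ e₂ := by
  have hs := hM_symm (surf2 hw x) hf.contDiffAt
  obtain ⟨e₁, e₂, h, h0, hle⟩ := exists_eig (norm_nu hw x.2) hs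
  have h0' : ⟪e₂, hM w f x e₁⟫ = 0 := by rw [← hs, real_inner_comm, h0]
  obtain ⟨e, F, F', Q, a1, a2, a3, a4, a5⟩ := crit_chart hw hf x hx h
  have z0 : e x = 0 := by simp [a2]
  have hQ : ∀ p, Q p p = ⟪e₁, hM w f x e₁⟫ * p.1 ^ 2 + ⟪e₂, hM w f x e₂⟫ * p.2 ^ 2 := fun p => by
    rw [a5, real_inner_comm]
    simp only [map_add, map_smul, inner_add_left, inner_add_right, real_inner_smul_left,
      real_inner_smul_right, h0, h0']
    ring
  have hdet : detM w f x = ⟪e₁, hM w f x e₁⟫ * ⟪e₂, hM w f x e₂⟫ := by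
    rw [detM, h.d2_eq, h0, zero_mul, sub_zero]
  rw [hdet] at hd ⊢
  rcases (right_ne_zero_of_mul hd).lt_or_gt with k2 | k2
  · rcases (left_ne_zero_of_mul hd).lt_or_gt with k1 | k1
    · left
      rw [← neg_neg (rs w f)]
      refine pk_of_min (F := -F) a1 z0 (fun z hz => congrArg Neg.neg (a3 z hz))
        (a4.neg.min (neg_pos.2 k1) (neg_pos.2 k2) fun p => ?_)
      simp only [neg_apply, hQ]
      ring
    · obtain ⟨r, hr⟩ := a4.shape (by simpa [hQ] using k1) (by simpa [hQ] using k2)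
      have hT : e.target ∈ 𝓝 (0 : ℝ × ℝ) := z0 ▸ e.open_target.mem_nhds (e.map_source a1)
      refine Or.inr (Or.inr ⟨mul_neg_of_pos_of_neg k1 k2, e₁, e₂, h, h0, k1, k2,
        Two.transfer a1 a3 (fun z => by rw [a2]) (z0 ▸ hr.two hT),
        Two.transfer (F := -F) a1 (fun z hz => congrArg Neg.neg (a3 z hz)) (fun z => by rw [a2])
          (z0 ▸ hr.two' hT), (frequently_transfer a1 (z0 ▸ hr.frequently)).mono fun z hz => ?_⟩)
      have k := hz.2
      rw [a3 z hz.1, a3 x a1, a2] at k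
      exact k
  · exact Or.inr (Or.inl (pk_of_min a1 z0 a3 (a4.min (k2.trans_le hle) k2 hQ)))

lemma Sad.cone (hw : IsSurf w) (hf : ContDiff ℝ 2 f) {x : {y | w y = 0}} (hx : gM w f x = 0)
    {e₁ e₂ : E3} (h : Sad w f x e₁ e₂) :
    ∀ᶠ y in 𝓝 x.1, w y = w x → y ≠ x → 0 ≤ ⟪e₁, y - x⟫ → 0 ≤ ⟪e₂, y - x⟫ →
      0 < ⟪e₁ + e₂, rot w f y⟫ ∧ ‖y - x‖ ≤ 2 * (⟪e₁, y - x⟫ + ⟪e₂, y - x⟫) := by
  have d := (innerSL ℝ (e₁ + e₂)).hasFDerivAt.comp x.1
    (hasFDerivAt_cr (hasFDerivAt_grad (surf2 hw x)) (hasFDerivAt_grad hf.contDiffAt))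
  have e : ∀ u, cr (gradient w x) (hs f x u) + cr (hs w x u) (gradient f x)
      = cr (gradient w x) (hM w f x u) := fun u => by
    rw [hM_apply, cr_sub_right, cr_smul_right, cr_anti (gradient w x) (hs w x u), smul_neg,
      sub_neg_eq_add, ← cr_smul_right, ← grad_eq hx]
  have e' : ∀ u, ⟪e₁ + e₂, cr (gradient w x) (hs f x u) + cr (hs w x u) (gradient f x)⟫
      = ⟪e₁, hM w f x u⟫ - ⟪e₂, hM w f x u⟫ := fun u => by
    rw [e, inner_add_left, h.fr.c1, h.fr.c2, h.fr.o13, h.fr.o23, h.fr.i33]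
    ring
  have h0' : ⟪e₂, hM w f x e₁⟫ = 0 := by
    rw [← hM_symm (surf2 hw x) hf.contDiffAt, real_inner_comm, h.off]
  refine P218UY.cone h.fr (hasFDerivAt_innerSL ((surf2 hw x).differentiableAt two_ne_zero)) d ?_
    (lt_of_lt_of_eq ?_ (e' e₁).symm) (lt_of_lt_of_eq ?_ (e' e₂).symm)
  · exact (congrArg _ ((rot_eq_zero hw x.2).2 hx)).trans (inner_zero_right _)
  · rw [h0', sub_zero]
    exact h.pos
  · rw [h.off, zero_sub]
    exact neg_pos.2 h.neg

/-- a saddle does not merge both the upper and the lower sectors -/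
theorem not_both (hw : IsSurf w) (hK : IsCompact {y | w y = 0}) (hf : ContDiff ℝ 2 f)
    [LocallyConnectedSpace {y | w y = 0}] {Cr : Finset {y | w y = 0}}
    (hC : ∀ y, y ∈ Cr ↔ gM w f y.1 = 0) (l1 : Loc (rs w f) Cr) (l2 : Loc (-rs w f) Cr)
    {x : {y | w y = 0}} (hx : x ∈ Cr) {e₁ e₂ : E3} (h : Sad w f x e₁ e₂) :
    ¬(Mer (rs w f) x ∧ Mer (-rs w f) x) := by
  rintro ⟨m1, m2⟩
  have hw2 : ContDiff ℝ 2 w := hw.smooth.of_le two_le
  have hv := contDiff_vf hw2 hf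
  have x0 : w x = 0 := x.2
  obtain ⟨O₁, o1, s1⟩ := l1.side hx h.up m1 (by fun_prop)
  obtain ⟨O₂, o2, s2⟩ := l2.side hx h.dn m2 (by fun_prop)
  obtain ⟨R, hR, hb⟩ := Metric.mem_nhds_iff.1 (inter_mem (inter_mem o1 o2)
    (continuous_subtype_val.continuousAt (h.cone hw hf ((hC x).1 hx))))
  have c1 : ContinuousAt (fun y : {y | w y = 0} => ⟪(2 : ℝ) • (e₁ + e₂), y.1 - x⟫) x := by fun_prop
  obtain ⟨z, ⟨z1, z2, z3⟩, z4, z5⟩ := (h.freq.and_eventually ((c1.eventually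
    (gt_mem_nhds (a := R) (by simpa using hR))).and (ball_mem_nhds x hR))).exists
  have zx : z.1 ≠ x := fun e => by simp [e] at z2
  obtain ⟨c, h0, hc, hl⟩ := exists_orbit hw2 hf z
  have w0 : ∀ t, w (c t) = 0 := fun t => (hl t).1.trans z.2
  have cx : ∀ t, c t ≠ x := fun t e => by
    have v0 : vf w f x = 0 := by rw [vf, (rot_eq_zero hw x0).2 ((hC x).1 hx), smul_zero]
    have := unique_global hv (g := fun _ => x.1) hc (fun s => v0 ▸ hasDerivAt_const s x.1) e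
    exact zx (h0.symm.trans (congrFun this 0))
  let c' : ℝ → {y | w y = 0} := fun t => ⟨c t, w0 t⟩
  have cc : Continuous c' :=
    (continuous_iff_continuousAt.2 fun t => (hc t).continuousAt).subtype_mk _
  have e0 : c' 0 = z := Subtype.ext h0
  have f0 : ∀ t, rs w f (c' t) = rs w f x := fun t => (hl t).2.trans z1
  have n0 : ∀ t, c' t ≠ x := fun t e => cx t (congrArg Subtype.val e)
  have q1 := s1 c' cc (fun t => ⟨f0 t, n0 t⟩) (e0 ▸ (hb z5).1.1) (e0 ▸ z2)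
  have q2 := s2 c' cc (fun t => ⟨congrArg Neg.neg (f0 t), n0 t⟩) (e0 ▸ (hb z5).1.2) (e0 ▸ z3)
  refine no_end hv (L := {y | w y = 0} ∩ {y | f y = f x}) (x := x) (e := (2 : ℝ) • (e₁ + e₂))
    (hK.inter_right (isClosed_eq hf.continuous continuous_const)) hc (fun t => ⟨w0 t, f0 t⟩)
    (R := R) (fun t ht => ?_) (by rw [h0, ← dist_eq_norm]; exact z5) (h0 ▸ z4) (cx 0)
    fun y hy hy' => ?_
  · have k := hb (show c' t ∈ ball x R by rwa [← dist_eq_norm] at ht)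
    obtain ⟨k1, k2⟩ := k.2 ((w0 t).trans x0.symm) (cx t) (q1 t k.1.1) (q2 t k.1.2)
    rw [vf, real_inner_smul_left, real_inner_smul_left, real_inner_smul_right, inner_add_left _ _
      (c t - x)]
    exact ⟨mul_pos two_pos (mul_pos (by positivity) k1), k2⟩
  · obtain ⟨d, hd, hd'⟩ := flow_box hw hf (y := y) fun e => hy' (congrArg Subtype.val
      (l1.inj ((hC ⟨y, hy.1⟩).2 ((rot_eq_zero hw hy.1).1 e)) hx hy.2))
    exact ⟨d, hd, hd'.mono fun z a b => a (b.1.trans hy.1.symm) (b.2.trans hy.2.symm)⟩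

lemma reg_lin {X : Type*} [TopologicalSpace X] {g : X → ℝ} {x : X}
    {e : OpenPartialHomeomorph X (ℝ × ℝ)} (hx : x ∈ e.source) (L : ℝ × ℝ →L[ℝ] ℝ) {v : ℝ × ℝ}
    (hv : 0 < L v) (h : ∀ z, L (e z) = g z) : x ∈ closure {z | g x < g z} ∧ ¬Mer g x :=
  ⟨mem_closure_iff_frequently.2 ((frequently_transfer hx (frequently_lin L hv (e x))).mono
    fun z hz => by simpa only [h, mem_ofPred_eq] using hz.2), (One.transfer hx (fun z _ => h z)
      (one_lin L (e.open_target.mem_nhds (e.map_source hx)))).not_mer⟩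

theorem l2 : L2Stmt := by
  classical
  intro w hw hK hP f crit hM t₁ t₂ ht hn h0
  have hf : ContDiff ℝ 2 f := hM.smooth.of_le two_le
  have : CompactSpace {y | w y = 0} := isCompact_iff_compactSpace.1 hK
  have : PreconnectedSpace {y | w y = 0} := isPreconnected_iff_preconnectedSpace.1 hP
  have : LocallyConnectedSpace {y | w y = 0} := locConn_of_charts (P := ℝ × ℝ) fun x => by
    by_cases hx : gM w f x = 0
    · obtain ⟨e₁, e₂, h⟩ := exists_fr (norm_nu hw x.2)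
      obtain ⟨e, -, -, -, a, -⟩ := crit_chart hw hf x hx h
      exact ⟨e, a⟩
    · obtain ⟨e, a, -⟩ := reg_chart hw hf x hx
      exact ⟨e, a⟩
  set Cr := crit.subtype (· ∈ {y | w y = 0}) with hCr
  have hC : ∀ y, y ∈ Cr ↔ gM w f y.1 = 0 := fun y => by
    rw [hCr, Finset.mem_subtype, hM.mem]
    exact and_iff_right y.2
  have mC : ∀ y ∈ Cr, y.1 ∈ crit := fun y hy => Finset.mem_subtype.1 hy
  have cs := fun x (hx : x ∈ Cr) => crit_cases hw hf x ((hC x).1 hx) (hM.nondeg _ (mC x hx))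
  have c0 : Continuous (rs w f) := hf.continuous.comp continuous_subtype_val
  have i0 : InjOn (rs w f) Cr := fun x hx y hy e => Subtype.ext (hM.inj (mC x hx) (mC y hy) e)
  have r1 : ∀ x, x ∉ Cr → x ∈ closure {z | rs w f x < rs w f z} ∧ ¬Mer (rs w f) x := fun x hx => by
    obtain ⟨e, a, b⟩ := reg_chart hw hf x (mt (hC x).2 hx)
    exact reg_lin a (ContinuousLinearMap.fst ℝ ℝ ℝ) (v := (1, 0)) one_pos b
  have r2 : ∀ x, x ∉ Cr → x ∈ closure {z | (-rs w f) x < (-rs w f) z} ∧ ¬Mer (-rs w f) x :=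
    fun x hx => by
      obtain ⟨e, a, b⟩ := reg_chart hw hf x (mt (hC x).2 hx)
      exact reg_lin a (-ContinuousLinearMap.fst ℝ ℝ ℝ) (v := (-1, 0)) (by simp)
        fun z => congrArg Neg.neg (b z)
  have l1 : Loc (rs w f) Cr := ⟨c0, i0, fun x hx => (r1 x hx).1, fun x hx => (r1 x hx).2,
    fun x hx => by
      rcases cs x hx with k | k | ⟨-, e₁, e₂, k⟩
      · exact two_of_not_mer k.2.1
      · exact two_of_not_mer (by simpa using k.2.2)
      · exact k.up.two⟩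
  have l2 : Loc (-rs w f) Cr := ⟨c0.neg, fun x hx y hy e => i0 hx hy (neg_injective e),
    fun x hx => (r2 x hx).1, fun x hx => (r2 x hx).2, fun x hx => by
      rcases cs x hx with k | k | ⟨-, e₁, e₂, k⟩
      · exact two_of_not_mer k.2.2
      · exact two_of_not_mer k.2.1
      · exact k.dn.two⟩
  have h0' : ∃ x, rs w f x ≤ t₁ := by
    obtain ⟨x, a, b⟩ := h0
    exact ⟨⟨x, a⟩, b⟩
  obtain ⟨T, T1, T2, T3⟩ := count l1 l2 (fun x => ind w f x)
    (fun x _ => by rcases Real.sign_apply_eq (detM w f x) with k | k | k <;> simp [ind, k])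
    (fun x hx => (cs x hx).imp_right (Or.imp_right fun k => (Real.sign_of_neg k.1).le))
    (fun x hx => by
      rcases cs x hx with k | k | ⟨-, e₁, e₂, k⟩
      · exact fun a => k.2.1 a.1
      · exact fun a => k.2.1 a.2
      · exact not_both hw hK hf hC l1 l2 hx k) h0'
  refine ⟨T.card, fun i => Subtype.val '' cp (rs w f) t₁ (T.equivFin.symm i) ∩ {y | f y < t₂},
    fun i j hij => ?_, fun i => ?_, le_trans (le_of_eq ?_) T3⟩
  · refine Disjoint.mono inter_subset_left inter_subset_left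
      ((disjoint_image_iff Subtype.val_injective).2 (T2 (T.equivFin.symm i).2 (T.equivFin.symm j).2
        fun e => hij (T.equivFin.symm.injective (Subtype.ext e))))
  · obtain ⟨p1, p2⟩ := T1 _ (T.equivFin.symm i).2
    beta_reduce
    generalize (T.equivFin.symm i).1 = p at p1 p2 ⊢
    refine ⟨?_, ⟨Subtype.val '' closure (cp (rs w f) t₁ p),
      (isClosed_zero hw).isClosedMap_subtype_val _ isClosed_closure, ?_⟩, fun t h => ?_⟩
    · obtain ⟨O, hO, e⟩ := isOpen_induced_iff.1 (isOpen_cp c0 t₁ p)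
      refine ⟨O, hO, Subset.antisymm ?_ fun y hy => ⟨⟨⟨y, hy.2.1⟩, e ▸ hy.1, rfl⟩, hy.2.2.2⟩⟩
      rintro _ ⟨⟨y, a, rfl⟩, b⟩
      exact ⟨(e ▸ a : y ∈ Subtype.val ⁻¹' O), y.2, cp_subset (f := rs w f) a, b⟩
    · refine Subset.antisymm ?_ ?_
      · rintro _ ⟨⟨y, a, rfl⟩, b⟩
        exact ⟨⟨y, subset_closure a, rfl⟩, y.2, cp_subset (f := rs w f) a, b⟩
      · rintro _ ⟨⟨y, a, rfl⟩, b⟩
        exact ⟨⟨y, mem_cp_of_closure c0 a b.2.1, rfl⟩, b.2.2⟩
    · have : t₂ ≤ rs w f p := by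
        by_contra k
        exact hn _ (mC p p1) ⟨p2, not_le.1 k⟩
      obtain ⟨y, a, b⟩ := exists_mem_cp_eq c0 h0' h.1 (h.2.le.trans this)
      exact ⟨y, ⟨⟨y, a, rfl⟩, b.trans_lt h.2⟩, b⟩
  · rw [Finset.sum_filter, Finset.sum_filter, hCr]
    exact (Finset.sum_subtype_of_mem (fun p => if t₁ < f p then ind w f p else 0)
      fun x hx => ((hM.mem x).1 hx).1).symm

end Vale.Agent.P218UY
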