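import Vale.Agent.P218UX.Aff
import Vale.Agent.P218UX.Jets
import Vale.Agent.P218UK.RegPt

/-! The conical directions of a self-shrinker. -/

open MeasureTheory Set Filter Topology Metric
open scoped ENNReal NNReal RealInnerProductSpace ContDiff

namespace Vale.Agent.P218UY

open Vale.Agent.P218UA Vale.Agent.P218UX
open Vale.Agent.P218UG (nQ lin exists_frame inner_pt pt_eq norm_lin_le norm_nQ)

variable {w : ℝ → E3 → ℝ} {I : Set ℝ} {Q : E3 ≃ₗᵢ[ℝ] E3} {p : E3} {σ η : ℝ}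

lemma sheetOn_mono {T T' : Set ℝ} {R ρ : ℝ} (h : SheetOn w T Q p R ρ η) (hT : T' ⊆ T) :
    SheetOn w T' Q p R ρ η :=
  h.imp (fun h t ht => h t (hT ht)) fun ⟨u, h⟩ => ⟨u, fun t ht => h t (hT ht)⟩

/-- sheets on windows which reach arbitrarily close to the time zero -/
lemma sheet_to_zero (hT : Tan) (hS : SheetStmt) {a A : ℝ} (ha : a < 0)
    (hw : IsARFlow w (Ioo a 0) A) {s : ℕ → ℝ} {ν : Measure E3} (hs : TanSeq w s ν)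
    (hν : ∀ x r, 0 < r → gd ν x r ≤ Real.exp (-⟪x, nQ Q⟫ ^ 2 / (4 * r ^ 2))) (hη : 0 < η)
    {κ : ℝ} (hκ : 0 < κ) : ∃ σ > 0, σ < κ ∧ a < -σ ^ 2 ∧ ∀ t ∈ Ioo (-(σ ^ 2 / 10)) 0,
      ∃ ρ ∈ Icc (σ / 2) σ, SheetOn w (Icc (-(σ ^ 2 / 4)) t) Q 0 σ ρ η := by
  obtain ⟨ε, hε, hS⟩ := hS A η hη
  have h2 : ∀ᶠ i in atTop, a < -s i ^ 2 :=
    (P218UK.eventually_lt ha hs (-1)).mono fun i hi => by
      simpa using (div_lt_iff₀ (pow_pos (hs.pos i) 2)).1 hi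
  have h3 := hT.gd_lim _ _ A (h2.mono fun i hi => by
    rw [hT.ar_resc w _ _ (hs.pos i)]
    exact P218UK.AR_scal (hw.ratio _ ⟨by linarith, by nlinarith [hs.pos i]⟩)
      (inv_pos.2 (hs.pos i))) (hT.ratio w a A ha hw s ν hs) hs.weak 21 (1 / 4) 1 ε (by norm_num) hε
  obtain ⟨i, h2, h3, h4⟩ := (h2.and (h3.and (hs.lim.eventually (gt_mem_nhds hκ)))).exists
  have h0 := hs.pos i
  rw [hT.ar_resc w _ _ h0] at h3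
  generalize s i = σ at *
  refine ⟨σ, h0, h4, h2, fun t ht => ?_⟩
  have hσ := pow_pos h0 2
  obtain ⟨ρ, hρ, e⟩ : ∃ ρ > 0, ρ ^ 2 = σ ^ 2 + t :=
    ⟨√(σ ^ 2 + t), Real.sqrt_pos.2 (by linarith [ht.1]), Real.sq_sqrt (by linarith [ht.1])⟩
  have r1 : σ / 2 ≤ ρ := abs_le_of_sq_le_sq' (by nlinarith [ht.1]) hρ.le |>.2
  have r2 : ρ ≤ σ := abs_le_of_sq_le_sq' (by nlinarith [ht.2]) h0.le |>.2
  refine ⟨ρ, ⟨r1, r2⟩, sheetOn_mono (hS w _ hw Q 0 σ ρ t h0 hρ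
    (fun u hu => ⟨by linarith [hu.1], hu.2.trans_lt ht.2⟩) fun ξ h r hξ hh hr => ?_)
    (Icc_subset_Icc (by linarith [ht.2]) le_rfl)⟩
  have hr0 : 0 < r := lt_of_lt_of_le (half_pos hρ) hr.1
  have a1 : ‖σ⁻¹ • pt Q 0 ξ h‖ ≤ 21 := by
    have := P218UK.norm_pt_sub Q 0 ξ h
    rw [sub_zero] at this
    rw [norm_smul, norm_inv, Real.norm_of_nonneg h0.le, inv_mul_le_iff₀ h0]
    linarith
  have a2 := (abs_le.1 (h3 _ a1 (r / σ) ⟨by rw [le_div_iff₀ h0]; linarith [hr.1],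
    by rw [div_le_iff₀ h0]; linarith [hr.2]⟩).1).2
  have a3 := hν (σ⁻¹ • pt Q 0 ξ h) (r / σ) (by positivity)
  have a4 := inner_pt (Q := Q) (p := 0) ξ h
  rw [sub_zero] at a4
  rw [real_inner_smul_left, a4, show -(σ⁻¹ * h) ^ 2 / (4 * (r / σ) ^ 2) = -h ^ 2 / (4 * r ^ 2) by
    field_simp] at a3
  rw [P218UK.gd_scal _ (inv_pos.2 h0), inv_inv, smul_inv_smul₀ h0.ne', div_inv_eq_mul,
    div_mul_cancel₀ _ h0.ne'] at a2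
  rw [show t - ρ ^ 2 = σ ^ 2 * -1 by linarith]
  linarith

/-- the properties of a sheet in a window -/
def Sh (w : ℝ → E3 → ℝ) (Q : E3 ≃ₗᵢ[ℝ] E3) (p : E3) (σ η t' ρ : ℝ) (u : ℝ → E2 → ℝ) : Prop :=
  ∀ t ∈ Icc (-(σ ^ 2 / 4)) t', IsGraph {x | w t x = 0} Q p σ (5 * ρ) (u t) ∧
    ∀ ξ : E2, ‖ξ‖ < σ → ContDiffAt ℝ ∞ (fun q : ℝ × E2 => u q.1 q.2) (t, ξ) ∧
      (∀ᶠ q : ℝ × E2 in 𝓝 (t, ξ), w q.1 (pt Q p q.2 (u q.1 q.2)) = 0) ∧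
      |u t ξ| ≤ η * ρ ∧ ‖gradient (u t) ξ‖ ≤ η ∧ ‖fderiv ℝ (gradient (u t)) ξ‖ ≤ η / ρ

lemma Sh.slice {t' ρ t : ℝ} {u : ℝ → E2 → ℝ} (h : Sh w Q p σ η t' ρ u)
    (ht : t ∈ Icc (-(σ ^ 2 / 4)) t') : ContDiffOn ℝ ∞ (u t) (ball 0 σ) := fun ξ hξ =>
  (ContDiffAt.comp (g := fun q : ℝ × E2 => u q.1 q.2) (f := fun y => (t, y)) ξ
    ((h t ht).2 ξ (mem_ball_zero_iff.1 hξ)).1 (by fun_prop)).contDiffWithinAt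

lemma Sh.eqn (hw : IsFlow w I) {t' ρ t : ℝ} {u : ℝ → E2 → ℝ} (hI : Icc (-(σ ^ 2 / 4)) t' ⊆ I)
    (h : Sh w Q p σ η t' ρ u) (ht : t ∈ Icc (-(σ ^ 2 / 4)) t') {ξ : E2} (hξ : ‖ξ‖ < σ) :
    deriv (fun s => u s ξ) t = gmc (u t) ξ :=
  P218UG.graph.eqn w I hw Q p u t (hI ht) ξ (((h t ht).2 ξ hξ).1.of_le (by norm_cast))
    ((h t ht).2 ξ hξ).2.1

lemma jet_bound (hH : HDStmt) (hσ : 0 < σ) (hη : η ≤ 1) (k : ℕ) : ∃ K : ℝ, ∀ w I Q p t' ρ u,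
    IsFlow w I → Icc (-(σ ^ 2 / 4)) t' ⊆ I → σ / 2 ≤ ρ → Sh w Q p σ η t' ρ u →
    ∀ t ∈ Icc (-(σ ^ 2 / 10)) t', ∀ ξ ∈ ball (0 : E2) (σ / 2), ∀ j, 1 ≤ j → j ≤ k →
      ‖iteratedFDeriv ℝ j (u t) ξ‖ ≤ K := by
  have h1 : ∀ j : ℕ, ∃ K : ℝ, ∀ w I Q p t' ρ u, IsFlow w I → Icc (-(σ ^ 2 / 4)) t' ⊆ I →
      σ / 2 ≤ ρ → Sh w Q p σ η t' ρ u → ∀ t ∈ Icc (-(σ ^ 2 / 10)) t',
      ∀ ξ ∈ ball (0 : E2) (σ / 2), 1 ≤ j → ‖iteratedFDeriv ℝ j (u t) ξ‖ ≤ K := by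
    intro j
    have hσ2 := pow_pos hσ 2
    by_cases hj : 2 ≤ j
    · obtain ⟨C, hC⟩ := hH 1 j hj
      refine ⟨_, fun w I Q p t' ρ u hw hI hρ h t ht ξ hξ _ =>
        hC u t (σ / 4) ξ (by positivity) fun s hs ζ hζ => ?_⟩
      have a1 : s ∈ Icc (-(σ ^ 2 / 4)) t' := ⟨by nlinarith [hs.1, ht.1], hs.2.trans ht.2⟩
      have a2 : ‖ζ‖ < σ := by
        linarith [norm_sub_norm_le ζ ξ, mem_closedBall_iff_norm.1 hζ, mem_ball_zero_iff.1 hξ]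
      obtain ⟨b1, -, -, b2, b3⟩ := (h s a1).2 ζ a2
      refine ⟨b1, h.eqn hw hI a1 a2, b2.trans hη, b3.trans ?_⟩
      exact div_le_div₀ zero_le_one hη (by positivity) (by linarith)
    · refine ⟨1, fun w I Q p t' ρ u _ _ _ h t ht ξ hξ hj' => ?_⟩
      obtain rfl : j = 1 := by omega
      have := ((h t ⟨by linarith [ht.1], ht.2⟩).2 ξ
        (by linarith [mem_ball_zero_iff.1 hξ])).2.2.2.1.trans hη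
      rwa [norm_iteratedFDeriv_one, ← (InnerProductSpace.toDual ℝ E2).symm.norm_map]
  choose K hK using h1
  exact ⟨∑ j ∈ Finset.range (k + 1), |K j|, fun w I Q p t' ρ u hw hI hρ h t ht ξ hξ j j1 j2 =>
    (hK j w I Q p t' ρ u hw hI hρ h t ht ξ hξ j1).trans ((le_abs_self _).trans
      (Finset.single_le_sum (f := fun j => |K j|) (fun _ _ => abs_nonneg _)
        (Finset.mem_range.2 (by omega))))⟩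

lemma lip_bound (hH : HDStmt) (hσ : 0 < σ) (hη : η ≤ 1) (k : ℕ) : ∃ C : ℝ, ∀ w I Q p t' ρ u,
    IsFlow w I → Icc (-(σ ^ 2 / 4)) t' ⊆ I → σ / 2 ≤ ρ → Sh w Q p σ η t' ρ u →
    ∀ t ∈ Icc (-(σ ^ 2 / 10)) t', ∀ ξ ∈ ball (0 : E2) (σ / 2),
      ‖iteratedFDeriv ℝ k (u t') ξ - iteratedFDeriv ℝ k (u t) ξ‖ ≤ C * (t' - t) := by
  obtain ⟨K, hK⟩ := jet_bound hH hσ hη (k + 2)
  obtain ⟨C, hC⟩ := gmc_bound k K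
  refine ⟨C, fun w I Q p t' ρ u hw hI hρ h t ht ξ hξ => ?_⟩
  have hσ2 := pow_pos hσ 2
  have hξ' : ‖ξ‖ < σ := by linarith [mem_ball_zero_iff.1 hξ]
  have a1 : ∀ s ∈ Icc t t', s ∈ Icc (-(σ ^ 2 / 4)) t' := fun s hs =>
    ⟨by linarith [hs.1, ht.1], hs.2⟩
  refine norm_image_sub_le_of_norm_deriv_le_segment'
    (f := fun s => iteratedFDeriv ℝ k (u s) ξ) (f' := fun s => iteratedFDeriv ℝ k (gmc (u s)) ξ)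
    (fun s hs => ?_) (fun s hs => ?_) t' (right_mem_Icc.2 ht.2)
  · have a2 := hasDerivAt_iter k (F := fun q : ℝ × E2 => u q.1 q.2)
      (((h s (a1 s hs)).2 ξ hξ').1.of_le (by exact_mod_cast le_top))
    have a3 : (fun y => deriv (fun s => u s y) s) =ᶠ[𝓝 ξ] gmc (u s) := by
      filter_upwards [isOpen_ball.mem_nhds (mem_ball_zero_iff.2 hξ')] with y hy
      exact h.eqn hw hI (a1 s hs) (mem_ball_zero_iff.1 hy)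
    rw [(a3.iteratedFDeriv ℝ k).self_of_nhds] at a2
    exact a2.hasDerivWithinAt
  · exact hC _ _ ξ isOpen_ball (mem_ball_zero_iff.2 hξ') (h.slice (a1 s (Ico_subset_Icc_self hs)))
      (hK w I Q p t' ρ u hw hI hρ h s ⟨ht.1.trans hs.1, hs.2.le⟩ ξ hξ)

/-- the graph up to the time zero -/
theorem limit_graph (hH : HDStmt) (hw : IsFlow w I) (hI : Ico (-(σ ^ 2 / 4)) 0 ⊆ I) (hσ : 0 < σ)
    (hη0 : 0 ≤ η) (hη : η ≤ 1 / 4) (h : ∀ t ∈ Ioo (-(σ ^ 2 / 10)) 0,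
      ∃ ρ ∈ Icc (σ / 2) σ, SheetOn w (Icc (-(σ ^ 2 / 4)) t) Q p σ ρ η) :
    (∀ t ∈ Ioo (-(σ ^ 2 / 10)) 0, ∀ (ξ : E2) (h : ℝ), ‖ξ‖ < σ / 2 → |h| < σ / 2 →
      w t (pt Q p ξ h) ≠ 0) ∨ ∃ (U : ℝ → E2 → ℝ) (u : E2 → ℝ), (∀ t ∈ Ioo (-(σ ^ 2 / 10)) 0,
        IsGraph {x | w t x = 0} Q p (σ / 2) (σ / 2) (U t) ∧
        ContDiffOn ℝ ∞ (U t) (ball 0 (σ / 2)) ∧
        ∀ ξ ∈ ball (0 : E2) (σ / 2), |U t ξ| ≤ η * σ ∧ ‖gradient (U t) ξ‖ ≤ η) ∧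
      ContDiffOn ℝ ∞ u (ball 0 (σ / 2)) ∧ ∀ k : ℕ, ∃ C : ℝ, ∀ t ∈ Ioo (-(σ ^ 2 / 10)) 0,
        ∀ ξ ∈ ball (0 : E2) (σ / 2),
          ‖iteratedFDeriv ℝ k (U t) ξ - iteratedFDeriv ℝ k u ξ‖ ≤ C * |t| := by
  have hσ2 := pow_pos hσ 2
  have m0 : ∀ t ∈ Ioo (-(σ ^ 2 / 10)) 0, ∀ t', t ≤ t' → t ∈ Icc (-(σ ^ 2 / 4)) t' :=
    fun t ht t' h => ⟨by linarith [ht.1], h⟩
  have m1 : ∀ t ∈ Ioo (-(σ ^ 2 / 10)) 0, -(σ ^ 2 / 4) ∈ Icc (-(σ ^ 2 / 4)) t :=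
    fun t ht => ⟨le_rfl, by linarith [ht.1]⟩
  have m2 : ∀ ρ ∈ Icc (σ / 2) σ, η * ρ ≤ η * σ ∧ η * σ < σ / 2 := fun ρ hρ =>
    ⟨mul_le_mul_of_nonneg_left hρ.2 hη0, by nlinarith⟩
  refine or_iff_not_imp_left.2 fun hE => ?_
  push Not at hE
  obtain ⟨t₀, ht₀, ξ₀, h₀, b1, b2, b3⟩ := hE
  obtain ⟨z, z1, z2⟩ : ∃ z, |z| < σ / 2 ∧ w (-(σ ^ 2 / 4)) (pt Q p 0 z) = 0 := by
    obtain ⟨ρ, hρ, k | ⟨u, k⟩⟩ := h t₀ ht₀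
    · exact absurd b3 (k t₀ (m0 t₀ ht₀ t₀ le_rfl) ξ₀ h₀ (by linarith) (by linarith [hρ.1]))
    · obtain ⟨-, c1, c2, -⟩ := (k _ (m1 t₀ ht₀)).2 0 (by simpa using hσ)
      exact ⟨_, c2.trans_lt ((m2 ρ hρ).1.trans_lt (m2 ρ hρ).2), c1.self_of_nhds⟩
  have h1 : ∀ t ∈ Ioo (-(σ ^ 2 / 10)) 0, ∃ ρ ∈ Icc (σ / 2) σ, ∃ u, Sh w Q p σ η t ρ u := by
    intro t ht
    obtain ⟨ρ, hρ, k | k⟩ := h t ht
    · exact absurd z2 (k _ (m1 t ht) 0 z (by simpa using hσ) (by linarith [hρ.1]))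
    · exact ⟨ρ, hρ, k⟩
  choose! ρ hρ u hu using h1
  have bd : ∀ t' ∈ Ioo (-(σ ^ 2 / 10)) 0, ∀ t ∈ Icc (-(σ ^ 2 / 4)) t', ∀ ξ : E2, ‖ξ‖ < σ →
      |u t' t ξ| ≤ η * σ := fun t' ht' t ht ξ hξ =>
    ((hu t' ht' t ht).2 ξ hξ).2.2.1.trans (m2 _ (hρ t' ht')).1
  have hb : ball (0 : E2) (σ / 2) ⊆ ball 0 σ := ball_subset_ball (by linarith)
  have sm : ∀ t ∈ Ioo (-(σ ^ 2 / 10)) 0, ContDiffOn ℝ ∞ (u t t) (ball 0 (σ / 2)) := fun t ht =>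
    ((hu t ht).slice (m0 t ht t le_rfl)).mono hb
  choose C hC using lip_bound hH hσ (hη.trans (by norm_num))
  have key : ∀ k, ∀ t ∈ Ioo (-(σ ^ 2 / 10)) 0, ∀ t' ∈ Ioo (-(σ ^ 2 / 10)) 0, t ≤ t' →
      ∀ ξ ∈ ball (0 : E2) (σ / 2),
      ‖iteratedFDeriv ℝ k (u t' t') ξ - iteratedFDeriv ℝ k (u t t) ξ‖ ≤ C k * (t' - t) := by
    intro k t ht t' ht' hle ξ hξ
    have e : u t' t =ᶠ[𝓝 ξ] u t t := by
      filter_upwards [isOpen_ball.mem_nhds (hb hξ)] with y hy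
      rw [mem_ball_zero_iff] at hy
      refine (((hu t ht t (m0 t ht t le_rfl)).1 y hy).2 _ ?_).1
        ((hu t' ht' t (m0 t ht t' hle)).2 y hy).2.1.self_of_nhds
      linarith [bd t' ht' t (m0 t ht t' hle) y hy, (m2 _ (hρ t ht)).2, (hρ t ht).1]
    rw [← (e.iteratedFDeriv ℝ k).self_of_nhds]
    exact hC k w I Q p t' _ _ hw (fun s hs => hI ⟨hs.1, hs.2.trans_lt ht'.2⟩) (hρ t' ht').1
      (hu t' ht') t ⟨ht.1.le, hle⟩ ξ hξ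
  obtain ⟨v, v1, v2⟩ := exists_lim (U := fun t => u t t) isOpen_ball (by positivity) sm C
    fun k t ht t' ht' ξ hξ => by
      rcases le_total t t' with l | l
      · rw [norm_sub_rev, abs_sub_comm, abs_of_nonneg (sub_nonneg.2 l)]
        exact key k t ht t' ht' l ξ hξ
      · rw [abs_of_nonneg (sub_nonneg.2 l)]
        exact key k t' ht' t ht l ξ hξ
  refine ⟨fun t => u t t, v, fun t ht => ⟨fun ξ hξ => ⟨?_, fun s hs => ?_⟩, sm t ht,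
    fun ξ hξ => ⟨bd t ht t (m0 t ht t le_rfl) ξ (mem_ball_zero_iff.1 (hb hξ)),
      ((hu t ht t (m0 t ht t le_rfl)).2 ξ (mem_ball_zero_iff.1 (hb hξ))).2.2.2.1⟩⟩, v1,
    fun k => ⟨C k, v2 k⟩⟩
  · exact (bd t ht t (m0 t ht t le_rfl) ξ (by linarith)).trans_lt (m2 _ (hρ t ht)).2
  · exact ((hu t ht t (m0 t ht t le_rfl)).1 ξ (by linarith)).2 s (by linarith [(hρ t ht).1])

/-- the field `con` of `EndStruct` at a direction where some tangent flow is empty or a plane -/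
theorem con_of_gd (hT : Tan) (hS : SheetStmt) (hH : HDStmt) {W : E3 → ℝ} {A : ℝ} (hW : IsShr W)
    (hA : 1 ≤ A) (h1 : AR (ar W) A) (e : E3) {s : ℕ → ℝ} {ν : Measure E3}
    (hs : TanSeq (sf W e) s ν) {n : E3} (hn : ‖n‖ = 1)
    (hν : ∀ x r, 0 < r → gd ν x r ≤ Real.exp (-⟪x, n⟫ ^ 2 / (4 * r ^ 2))) :
    ∀ η > 0, ∃ (Q : E3 ≃ₗᵢ[ℝ] E3) (ρ s₀ : ℝ), 0 < ρ ∧ ρ < η ∧ 0 < s₀ ∧
      ((∀ s ∈ Ioo 0 s₀, ∀ (ξ : E2) (h : ℝ), ‖ξ‖ < ρ → |h| < ρ →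
        s⁻¹ • pt Q e ξ h ∉ {x | W x = 0}) ∨
      ∃ u : ℝ → E2 → ℝ, (∀ s ∈ Ioo 0 s₀, IsGraph {x | s⁻¹ • x ∈ {x | W x = 0}} Q e ρ ρ (u s) ∧
        ContDiffOn ℝ ∞ (u s) (ball 0 ρ) ∧
        ∀ ξ ∈ ball (0 : E2) ρ, |u s ξ| ≤ η * ρ ∧ ‖gradient (u s) ξ‖ ≤ η) ∧
        ContDiffOn ℝ ∞ (u 0) (ball 0 ρ) ∧ ∀ k : ℕ, ∃ C : ℝ, ∀ s ∈ Ioo 0 s₀, ∀ ξ ∈ ball (0 : E2) ρ,
          ‖iteratedFDeriv ℝ k (u s) ξ - iteratedFDeriv ℝ k (u 0) ξ‖ ≤ C * s ^ 2) := by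
  intro η hη
  obtain ⟨Q, rfl⟩ := exists_frame hn
  have hw : IsARFlow (sf W e) (Ioo (-1) 0) A :=
    ⟨isFlow_sf hW isOpen_Ioo ordConnected_Ioo Ioo_subset_Iio_self, hA,
      fun _ ht => AR_aff (sqrt_neg_pos ht.2) h1⟩
  have e0 : 0 < min (η / 2) (1 / 4) := lt_min (half_pos hη) (by norm_num)
  obtain ⟨σ, hσ, a1, a2, a3⟩ := sheet_to_zero hT hS (by norm_num) hw hs hν e0 hη
  have hσ2 := pow_pos hσ 2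
  have m : ∀ s ∈ Ioo 0 (σ / 4), -s ^ 2 ∈ Ioo (-(σ ^ 2 / 10)) 0 := fun s hs =>
    ⟨by nlinarith [hs.1, hs.2], neg_neg_of_pos (pow_pos hs.1 2)⟩
  have z : ∀ s ∈ Ioo 0 (σ / 4), ∀ ξ h,
      sf W e (-s ^ 2) (pt Q 0 ξ h) = 0 ↔ W (s⁻¹ • pt Q e ξ h) = 0 := fun s hs ξ h => by
    rw [sf_neg_sq hs.1.le, aff_eq_zero hs.1.ne', pt_eq, pt_eq, zero_add, add_comm]
  refine ⟨Q, σ / 2, σ / 4, by positivity, by linarith, by positivity, ?_⟩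
  refine (limit_graph hH hw.toIsFlow (fun t ht => ⟨by linarith [ht.1], ht.2⟩) hσ e0.le
    (min_le_right _ _) a3).imp (fun k s hs ξ h b1 b2 b3 => k _ (m s hs) ξ h b1 b2
      ((z s hs ξ h).2 b3)) fun ⟨U, u, k1, k2, k3⟩ => ?_
  refine ⟨fun s => if s = 0 then u else U (-s ^ 2), fun s hs => ?_, by simpa using k2, fun k => ?_⟩
  · obtain ⟨b1, b2, b3⟩ := k1 _ (m s hs)
    simp only [if_neg hs.1.ne']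
    refine ⟨fun ξ hξ => ⟨(b1 ξ hξ).1, fun h hh => (z s hs ξ h).symm.trans ((b1 ξ hξ).2 h hh)⟩, b2,
      fun ξ hξ => ⟨(b3 ξ hξ).1.trans ?_, (b3 ξ hξ).2.trans ?_⟩⟩
    · nlinarith [min_le_left (η / 2) (1 / 4)]
    · linarith [min_le_left (η / 2) (1 / 4)]
  · obtain ⟨C, hC⟩ := k3 k
    refine ⟨C, fun s hs ξ hξ => ?_⟩
    simpa [hs.1.ne'] using hC _ (m s hs) ξ hξ

theorem con_of (hT : Tan) (hS : SheetStmt) (hH : HDStmt) (hD : CylDensStmt) {W : E3 → ℝ} {A : ℝ}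
    (hW : IsShr W) (hA : 1 ≤ A) (h1 : AR (ar W) A) (e : E3) {s : ℕ → ℝ} {ν : Measure E3}
    (hs : TanSeq (sf W e) s ν) (hν : ν = 0 ∨
      ∃ n : E3, ‖n‖ = 1 ∧ ν = (μHE[2] : Measure E3).restrict {z | ⟪z, n⟫ = 0}) :
    ∀ η > 0, ∃ (Q : E3 ≃ₗᵢ[ℝ] E3) (ρ s₀ : ℝ), 0 < ρ ∧ ρ < η ∧ 0 < s₀ ∧
      ((∀ s ∈ Ioo 0 s₀, ∀ (ξ : E2) (h : ℝ), ‖ξ‖ < ρ → |h| < ρ →
        s⁻¹ • pt Q e ξ h ∉ {x | W x = 0}) ∨
      ∃ u : ℝ → E2 → ℝ, (∀ s ∈ Ioo 0 s₀, IsGraph {x | s⁻¹ • x ∈ {x | W x = 0}} Q e ρ ρ (u s) ∧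
        ContDiffOn ℝ ∞ (u s) (ball 0 ρ) ∧
        ∀ ξ ∈ ball (0 : E2) ρ, |u s ξ| ≤ η * ρ ∧ ‖gradient (u s) ξ‖ ≤ η) ∧
        ContDiffOn ℝ ∞ (u 0) (ball 0 ρ) ∧ ∀ k : ℕ, ∃ C : ℝ, ∀ s ∈ Ioo 0 s₀, ∀ ξ ∈ ball (0 : E2) ρ,
          ‖iteratedFDeriv ℝ k (u s) ξ - iteratedFDeriv ℝ k (u 0) ξ‖ ≤ C * s ^ 2) := by
  rcases hν with rfl | ⟨n, hn, rfl⟩
  · refine con_of_gd hT hS hH hW hA h1 e hs (norm_nQ (Q := LinearIsometryEquiv.refl ℝ E3))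
      fun x r _ => ?_
    simpa [gd] using (Real.exp_pos _).le
  · exact con_of_gd hT hS hH hW hA h1 e hs hn fun x r hr => by
      simpa using ((hD n hn).2.2 x r 0 hr).1.le

end Vale.Agent.P218UY
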