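import Vale.Agent.P218UY.Elder
import Mathlib.Topology.Order.IntermediateValue
import Mathlib.Algebra.Order.BigOperators.Group.Finset

/-! The Morse inequality above a level, from the elder rule. -/

open Set Filter Topology

namespace Vale.Agent.P218UY

variable {X : Type*} [TopologicalSpace X] {f : X → ℝ} {Cr : Finset X}

/-- a local maximum at which no components are merged -/
def Pk (f : X → ℝ) (x : X) : Prop := (∀ᶠ z in 𝓝 x, f z ≤ f x) ∧ ¬Mer f x ∧ ¬Mer (-f) x

variable [LocallyConnectedSpace X] [PreconnectedSpace X]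

/-- a component above the level `t` comes down to the level `t` -/
lemma exists_mem_cp_eq (hf : Continuous f) {t s : ℝ} {p : X} (h0 : ∃ x, f x ≤ t) (h1 : t < s)
    (h2 : s ≤ f p) : ∃ x ∈ cp f t p, f x = s := by
  obtain ⟨z, hz, hz'⟩ : ∃ z ∈ closure (cp f t p), f z ≤ t := by
    by_contra hc
    push Not at hc
    have h3 : IsClopen (cp f t p) :=
      ⟨closure_subset_iff_isClosed.1 fun z hz => mem_cp_of_closure hf hz (hc z hz),
        isOpen_cp hf t p⟩
    obtain ⟨x, hx⟩ := h0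
    have h4 : x ∈ cp f t p := by
      rw [h3.eq_univ ⟨p, mem_cp (h1.trans_le h2)⟩]
      trivial
    exact absurd (cp_subset h4) (not_lt.2 hx)
  obtain ⟨y, hy, hy'⟩ := mem_closure_iff.1 hz _ (isOpen_lt hf continuous_const)
    (hz'.trans_lt h1)
  exact (isPreconnected_cp t p).intermediate_value hy' (mem_cp (h1.trans_le h2)) hf.continuousOn
    ⟨le_of_lt hy, h2⟩

variable [CompactSpace X] [T2Space X]

theorem count (h : Loc f Cr) (h' : Loc (-f) Cr) (ind : X → ℝ) (h1 : ∀ x ∈ Cr, ind x ≤ 1)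
    (h2 : ∀ x ∈ Cr, Pk f x ∨ Pk (-f) x ∨ ind x ≤ -1)
    (h3 : ∀ x ∈ Cr, ¬(Mer f x ∧ Mer (-f) x)) {t : ℝ} (h0 : ∃ x, f x ≤ t) :
    ∃ T : Finset X, (∀ p ∈ T, p ∈ Cr ∧ t < f p) ∧ (T : Set X).PairwiseDisjoint (cp f t) ∧
      ∑ p ∈ Cr with t < f p, ind p ≤ T.card := by
  classical
  set S := Cr.filter fun p => t < f p with hS
  set A := S.filter fun p => Pk f p with hA
  set B := (S.filter fun p => ¬Pk f p).filter fun p => Pk (-f) p with hB
  set C := (S.filter fun p => ¬Pk f p).filter fun p => ¬Pk (-f) p with hC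
  set F := A.filter fun p => ∃ y ∈ cp f t p, f p < f y with hF
  set T := A.filter fun p => ¬∃ y ∈ cp f t p, f p < f y with hT
  have mC : ∀ x ∈ Cr, t < f x → Mer f x ∨ Mer (-f) x → x ∈ C := fun x a b c => by
    simp only [hC, hS, Finset.mem_filter]
    refine ⟨⟨⟨a, b⟩, fun d => c.elim d.2.1 d.2.2⟩, fun d => c.elim ?_ d.2.1⟩
    simpa using d.2.2
  obtain ⟨q₁, i₁, e₁⟩ := h.elder t F
    (fun p hp => by simp only [hF, hA, hS, Finset.mem_filter] at hp; exact hp.1.1.1)
    (fun p hp => by simp only [hF, hA, hS, Finset.mem_filter] at hp; exact hp.1.2.1)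
    (fun p hp => (Finset.mem_filter.1 hp).2)
  obtain ⟨x₀, hx₀⟩ := h0
  obtain ⟨m, -, hm⟩ := isCompact_univ.exists_isMaxOn ⟨x₀, mem_univ _⟩ h.cont.continuousOn
  have mB : ∀ p ∈ B, p ∈ Cr ∧ t < f p ∧ Pk (-f) p := fun p hp => by
    simp only [hB, hS, Finset.mem_filter] at hp
    exact ⟨hp.1.1.1, hp.1.1.2, hp.2⟩
  obtain ⟨q₂, i₂, e₂⟩ := h'.elder (-f m - 1) B (fun p hp => (mB p hp).1)
    (fun p hp => (mB p hp).2.2.1) (fun p hp => ⟨x₀, subset_cp isPreconnected_univ
      (fun z hz => by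
        have : f z ≤ f m := hm hz
        simp only [Pi.neg_apply]
        linarith) (mem_univ p) (mem_univ x₀), by
      simp only [Pi.neg_apply]
      linarith [(mB p hp).2.1]⟩)
  have c1 : F.card + B.card ≤ C.card := by
    rw [← Finset.card_image_of_injOn i₁, ← Finset.card_image_of_injOn i₂,
      ← Finset.card_union_of_disjoint]
    · refine Finset.card_le_card (Finset.union_subset ?_ ?_)
      · intro x hx
        obtain ⟨p, hp, rfl⟩ := Finset.mem_image.1 hx
        exact mC _ (e₁ p hp).1 (e₁ p hp).2.2.1 (Or.inl (e₁ p hp).2.1)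
      · intro x hx
        obtain ⟨p, hp, rfl⟩ := Finset.mem_image.1 hx
        refine mC _ (e₂ p hp).1 ?_ (Or.inr (e₂ p hp).2.1)
        have := (e₂ p hp).2.2.2
        simp only [Pi.neg_apply] at this
        linarith [(mB p hp).2.1]
    · refine Finset.disjoint_left.2 fun x hx hx' => ?_
      obtain ⟨p, hp, rfl⟩ := Finset.mem_image.1 hx
      obtain ⟨p', hp', e⟩ := Finset.mem_image.1 hx'
      exact h3 _ (e₁ p hp).1 ⟨(e₁ p hp).2.1, e ▸ (e₂ p' hp').2.1⟩
  have mT : ∀ p ∈ T, (p ∈ Cr ∧ t < f p) ∧ ∀ y ∈ cp f t p, f y ≤ f p := fun p hp => by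
    simp only [hT, hA, hS, Finset.mem_filter] at hp
    refine ⟨hp.1.1, fun y hy => ?_⟩
    by_contra hc
    exact hp.2 ⟨y, hy, not_le.1 hc⟩
  refine ⟨T, fun p hp => (mT p hp).1, fun p hp p' hp' hne => ?_, ?_⟩
  · refine disjoint_left.2 fun z hz hz' => hne (h.inj (mT p hp).1.1 (mT p' hp').1.1 ?_)
    have e := cp_eq_of_mem hz hz'
    exact le_antisymm ((mT p' hp').2 p (e ▸ mem_cp (mT p hp).1.2))
      ((mT p hp).2 p' (e ▸ mem_cp (mT p' hp').1.2))
  · have s1 : ∑ p ∈ S, ind p = ∑ p ∈ A, ind p + (∑ p ∈ B, ind p + ∑ p ∈ C, ind p) := by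
      rw [hB, hC, Finset.sum_filter_add_sum_filter_not, hA, Finset.sum_filter_add_sum_filter_not]
    have s2 : ∑ p ∈ A, ind p ≤ A.card • (1 : ℝ) := Finset.sum_le_card_nsmul _ _ _ fun p hp => by
      simp only [hA, hS, Finset.mem_filter] at hp
      exact h1 p hp.1.1
    have s3 : ∑ p ∈ B, ind p ≤ B.card • (1 : ℝ) :=
      Finset.sum_le_card_nsmul _ _ _ fun p hp => h1 p (mB p hp).1
    have s4 : ∑ p ∈ C, ind p ≤ C.card • (-1 : ℝ) := Finset.sum_le_card_nsmul _ _ _ fun p hp => by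
      simp only [hC, hS, Finset.mem_filter] at hp
      exact ((h2 p hp.1.1.1).resolve_left hp.1.2).resolve_left hp.2
    have s5 : F.card + T.card = A.card := Finset.card_filter_add_card_filter_not _
    simp only [nsmul_eq_mul, mul_one, mul_neg] at s2 s3 s4
    have s6 : (F.card : ℝ) + T.card = A.card := by exact_mod_cast s5
    have s7 : (F.card : ℝ) + B.card ≤ C.card := by exact_mod_cast c1
    linarith

end Vale.Agent.P218UY
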