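import Mathlib.Topology.Connected.LocallyConnected
import Mathlib.Topology.Instances.Real.Lemmas
import Mathlib.Topology.Separation.Regular
import Mathlib.Topology.Order.Compact

/-! The elder rule for the components of superlevel sets. -/

open Set Filter Topology

namespace Vale.Agent.P218UY

variable {X : Type*} [TopologicalSpace X] {f : X → ℝ} {Cr : Finset X}

/-- the component of `p` above the level `s` -/
def cp (f : X → ℝ) (s : ℝ) (p : X) : Set X := connectedComponentIn {x | s < f x} p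

/-- the points near `x` which are higher than `x` do not lie in one component -/
def Mer (f : X → ℝ) (x : X) : Prop := ¬∃ y, ∀ᶠ z in 𝓝 x, f x < f z → z ∈ cp f (f x) y

/-- the local structure of the superlevel sets -/
structure Loc (f : X → ℝ) (Cr : Finset X) : Prop where
  cont : Continuous f
  inj : InjOn f Cr
  clos : ∀ x, x ∉ Cr → x ∈ closure {z | f x < f z}
  reg : ∀ x, x ∉ Cr → ¬Mer f x
  two : ∀ x ∈ Cr, ∃ y₁ y₂, ∀ᶠ z in 𝓝 x, f x < f z → z ∈ cp f (f x) y₁ ∪ cp f (f x) y₂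

lemma cp_subset {s : ℝ} {p x : X} (hx : x ∈ cp f s p) : s < f x :=
  connectedComponentIn_subset {x | s < f x} p hx

lemma mem_cp {s : ℝ} {p : X} (hp : s < f p) : p ∈ cp f s p := mem_connectedComponentIn hp

lemma cp_eq {s : ℝ} {p x : X} (hx : x ∈ cp f s p) : cp f s p = cp f s x :=
  connectedComponentIn_eq hx

lemma cp_eq_of_mem {s : ℝ} {p q x : X} (hp : x ∈ cp f s p) (hq : x ∈ cp f s q) :
    cp f s p = cp f s q := (cp_eq hp).trans (cp_eq hq).symm

lemma cp_mono {s s' : ℝ} (h : s ≤ s') (p : X) : cp f s' p ⊆ cp f s p :=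
  connectedComponentIn_mono _ fun _ hx => h.trans_lt hx

lemma lt_of_mem_cp {s : ℝ} {p x : X} (hx : x ∈ cp f s p) : s < f p := by
  by_contra h
  rw [cp, connectedComponentIn_eq_empty (F := {x | s < f x}) h] at hx
  exact hx

lemma isPreconnected_cp (s : ℝ) (p : X) : IsPreconnected (cp f s p) :=
  isPreconnected_connectedComponentIn

lemma subset_cp {s : ℝ} {A : Set X} (hA : IsPreconnected A) (h : ∀ x ∈ A, s < f x) {p : X}
    (hp : p ∈ A) : A ⊆ cp f s p := hA.subset_connectedComponentIn hp h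

lemma not_mer_of {x : X} {A : Set X} (hA : IsPreconnected A) (h : ∀ z ∈ A, f x < f z)
    (he : ∀ᶠ z in 𝓝 x, f x < f z → z ∈ A) : ¬Mer f x := by
  rintro hm
  rcases A.eq_empty_or_nonempty with rfl | ⟨y, hy⟩
  · exact hm ⟨x, he.mono fun z hz h => (hz h).elim⟩
  · exact hm ⟨y, he.mono fun z hz h' => subset_cp hA h hy (hz h')⟩

lemma le_of_closure (hf : Continuous f) {U : Set X} {d : ℝ} (hU : ∀ x ∈ U, d < f x) {x : X}
    (hx : x ∈ closure U) : d ≤ f x :=
  closure_minimal (t := {z | d ≤ f z}) (fun z hz => (hU z hz).le)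
    (isClosed_le continuous_const hf) hx

/-- a component which accumulates at `x` is the one which contains the higher points near `x` -/
lemma cp_eq_of_closure {d : ℝ} {x y p : X} (hx : x ∈ closure (cp f d p))
    (he : ∀ᶠ z in 𝓝 x, d < f z → z ∈ cp f d y) : cp f d p = cp f d y := by
  obtain ⟨z, hz, hz'⟩ := mem_closure_iff_nhds.1 hx _ he
  exact cp_eq_of_mem hz' (hz (cp_subset hz'))

variable [LocallyConnectedSpace X]

lemma isOpen_cp (hf : Continuous f) (s : ℝ) (p : X) : IsOpen (cp f s p) :=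
  (isOpen_lt continuous_const hf).connectedComponentIn

lemma mem_cp_of_closure (hf : Continuous f) {s : ℝ} {p x : X} (hx : x ∈ closure (cp f s p))
    (h : s < f x) : x ∈ cp f s p := by
  obtain ⟨z, hz, hz'⟩ := mem_closure_iff.1 hx _ (isOpen_cp hf s x) (mem_cp h)
  rw [cp_eq_of_mem hz' hz]
  exact mem_cp h

lemma exists_gt_mem_cp (hf : Continuous f) {s : ℝ} {p y : X} (hy : y ∈ cp f s p) :
    ∃ s' > s, y ∈ cp f s' p := by
  set U : Set X := {x | ∃ s' > s, x ∈ cp f s' p} with hU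
  have h1 : IsOpen U := by
    refine isOpen_iff_mem_nhds.2 fun x ⟨s', h, hx⟩ => ?_
    filter_upwards [(isOpen_cp hf s' p).mem_nhds hx] with z hz using ⟨s', h, hz⟩
  have h2 : IsOpen ({x | s < f x} \ U) := by
    refine isOpen_iff_mem_nhds.2 fun x ⟨hx, hx'⟩ => ?_
    obtain ⟨s', h3, h4⟩ := exists_between (show s < f x from hx)
    filter_upwards [(isOpen_cp hf s' x).mem_nhds (mem_cp h4)] with z hz
    refine ⟨h3.trans (cp_subset hz), fun ⟨s'', h5, h6⟩ => hx' ⟨min s' s'', lt_min h3 h5, ?_⟩⟩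
    rw [← cp_eq_of_mem (cp_mono (min_le_left _ _) _ hz) (cp_mono (min_le_right _ _) _ h6)]
    exact mem_cp ((min_le_left _ _).trans_lt h4)
  obtain ⟨s', h3, h4⟩ := exists_between (lt_of_mem_cp hy)
  refine (isPreconnected_cp s p).subset_left_of_subset_union h1 h2 disjoint_sdiff_right ?_
    ⟨p, mem_cp (h3.trans h4), s', h3, mem_cp h4⟩ hy
  intro x hx
  by_cases h : x ∈ U
  · exact Or.inl h
  · exact Or.inr ⟨cp_subset hx, h⟩

variable [CompactSpace X] [T2Space X]

omit [LocallyConnectedSpace X] in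
lemma trap (hf : Continuous f) {K N : Set X} {d : ℝ} (hK : IsClosed K) (hN : IsOpen N)
    (hKN : K ⊆ N) (h : ∀ y ∈ N, y ∉ K → y ∉ Cr → f y < d) :
    ∃ s < d, ∀ p ∈ K, cp f s p ⊆ N := by
  have hL : IsClosed ((Cr : Set X) \ K) := (Cr.finite_toSet.subset sdiff_subset).isClosed
  obtain ⟨O, hO, hKO, hON⟩ := normal_exists_closure_subset hK (hN.sdiff hL)
    (fun x hx => ⟨hKN hx, fun h => h.2 hx⟩)
  have hF : IsCompact (closure O \ O) := (isClosed_closure.sdiff hO).isCompact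
  have h1 : ∀ y ∈ closure O \ O, f y < d := fun y hy =>
    h y (hON hy.1).1 (fun h => hy.2 (hKO h)) fun hc => (hON hy.1).2 ⟨hc, fun h => hy.2 (hKO h)⟩
  obtain ⟨s, hs, h2⟩ : ∃ s < d, ∀ y ∈ closure O \ O, f y ≤ s := by
    rcases (closure O \ O).eq_empty_or_nonempty with h0 | h0
    · exact ⟨d - 1, by linarith, fun y hy => by rw [h0] at hy; exact hy.elim⟩
    · obtain ⟨y, hy, hm⟩ := hF.exists_isMaxOn h0 hf.continuousOn
      exact ⟨f y, h1 y hy, fun z hz => hm hz⟩
  refine ⟨s, hs, fun p hp x hx => ?_⟩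
  have h3 : cp f s p ⊆ O := by
    refine (isPreconnected_cp s p).subset_left_of_subset_union hO isClosed_closure.isOpen_compl
      (disjoint_compl_right.mono_left subset_closure) ?_ ⟨p, mem_cp (lt_of_mem_cp hx), hKO hp⟩
    intro z hz
    by_cases h4 : z ∈ closure O
    · by_contra h5
      exact absurd (h2 z ⟨h4, fun h => h5 (Or.inl h)⟩) (not_le.2 (cp_subset hz))
    · exact Or.inr h4
  exact (hON (subset_closure (h3 hx))).1

omit [LocallyConnectedSpace X] in
lemma Loc.stab (h : Loc f Cr) {U : Set X} {d : ℝ}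
    (hU : ∀ x ∈ closure U, ∀ᶠ z in 𝓝 x, d < f z → z ∈ U) :
    ∃ s < d, ∀ p ∈ U, ∀ y ∈ cp f s p, d < f y → y ∈ U := by
  obtain ⟨s, hs, h1⟩ := trap (Cr := Cr) h.cont (K := closure U)
    (N := {y | ∀ᶠ z in 𝓝 y, d < f z → z ∈ U}) (d := d) isClosed_closure
    isOpen_setOfPred_eventually_nhds hU (fun y hy hy' hc => by
      by_contra h2
      refine hy' (mem_closure_iff_nhds.2 fun t ht => ?_)
      obtain ⟨z, hz, hz'⟩ := mem_closure_iff_nhds.1 (h.clos y hc) _ (inter_mem ht hy)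
      exact ⟨z, hz.1, hz.2 ((not_lt.1 h2).trans_lt hz')⟩)
  exact ⟨s, hs, fun p hp y hy => (h1 p (subset_closure hp) hy).self_of_nhds⟩

/-- the component born at `p` is merged with an elder one at `x` -/
structure Death (f : X → ℝ) (p x : X) : Prop where
  mer : Mer f x
  lt : f x < f p
  clos : x ∈ closure (cp f (f x) p)
  top : ∀ y ∈ cp f (f x) p, f y ≤ f p
  below : ∀ s < f x, ∃ y ∈ cp f s p, f p < f y

omit [CompactSpace X] [T2Space X] in
lemma Loc.ev_of_closure (h : Loc f Cr) {d : ℝ} {p x : X} (hx : x ∈ closure (cp f d p))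
    (hm : f x = d → ¬Mer f x) : ∀ᶠ z in 𝓝 x, d < f z → z ∈ cp f d p := by
  rcases (le_of_closure h.cont (fun _ => cp_subset) hx).eq_or_lt with e | e
  · obtain ⟨y, hy⟩ := not_not.1 (hm e.symm)
    rw [← e] at hy
    rw [cp_eq_of_closure hx hy]
    exact hy
  · filter_upwards [(isOpen_cp h.cont d p).mem_nhds (mem_cp_of_closure h.cont hx e)] with z hz _
      using hz

theorem Loc.exists_death (h : Loc f Cr) {p : X} (hp : ∀ᶠ z in 𝓝 p, f z ≤ f p) {t : ℝ}
    (ht : ∃ y ∈ cp f t p, f p < f y) : ∃ x, t < f x ∧ Death f p x := by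
  set S : Set ℝ := {s | ∃ y ∈ cp f s p, f p < f y} with hS
  have hb : ∀ s ∈ S, s < f p := fun s ⟨y, hy, _⟩ => lt_of_mem_cp hy
  have hbd : BddAbove S := ⟨f p, fun s hs => (hb s hs).le⟩
  have hup : ∀ s ∈ S, s < sSup S := fun s ⟨y, hy, hy'⟩ => by
    obtain ⟨s', h1, h2⟩ := exists_gt_mem_cp h.cont hy
    exact h1.trans_le (le_csSup hbd ⟨y, h2, hy'⟩)
  have hlow : ∀ s < sSup S, s ∈ S := fun s hs => by
    obtain ⟨s', ⟨y, hy, hy'⟩, h1⟩ := exists_lt_of_lt_csSup ⟨t, ht⟩ hs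
    exact ⟨y, cp_mono h1.le _ hy, hy'⟩
  set d := sSup S with hd
  have htop : ∀ y ∈ cp f d p, f y ≤ f p := fun y hy => by
    by_contra h1
    exact lt_irrefl _ (hup d ⟨y, hy, not_le.1 h1⟩)
  have hdp : d < f p := by
    refine lt_of_le_of_ne (csSup_le ⟨t, ht⟩ fun s hs => (hb s hs).le) fun e => ?_
    obtain ⟨s, hs, h1⟩ := trap (Cr := Cr) h.cont (K := {p}) (N := {y | ∀ᶠ z in 𝓝 y, f z ≤ f p})
      (d := d) isClosed_singleton isOpen_setOfPred_eventually_nhds (by simpa using hp)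
      (fun y hy _ hc => by
        obtain ⟨z, hz, hz'⟩ := mem_closure_iff_nhds.1 (h.clos y hc) _ hy
        rw [e]
        exact lt_of_lt_of_le hz' hz)
    obtain ⟨y, hy, hy'⟩ := hlow s hs
    exact absurd (h1 p rfl hy).self_of_nhds (not_le.2 hy')
  by_contra hc
  obtain ⟨s, hs, h1⟩ := h.stab (U := cp f d p) (d := d) fun x hx =>
    h.ev_of_closure hx fun e hm => hc ⟨x, e ▸ hup t ht, hm, e ▸ hdp, e ▸ hx, e ▸ htop, e ▸ hlow⟩
  obtain ⟨y, hy, hy'⟩ := hlow s hs
  exact absurd (htop y (h1 p (mem_cp hdp) y hy (hdp.trans hy'))) (not_le.2 hy')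

omit [LocallyConnectedSpace X] [CompactSpace X] [T2Space X] in
lemma Loc.mem_of_mer (h : Loc f Cr) {x : X} (hx : Mer f x) : x ∈ Cr := by
  by_contra hc
  exact h.reg x hc hx

lemma Loc.death_lt (h : Loc f Cr) {p p' x : X} (h1 : Death f p x) (h2 : Death f p' x) :
    ¬f p' < f p := by
  intro hlt
  have hx := h.mem_of_mer h1.mer
  have hne : cp f (f x) p ≠ cp f (f x) p' := fun e =>
    absurd (h2.top p (e ▸ mem_cp h1.lt)) (not_le.2 hlt)
  obtain ⟨y₁, y₂, hy⟩ := h.two x hx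
  have key : ∀ q, x ∈ closure (cp f (f x) q) →
      cp f (f x) q = cp f (f x) y₁ ∨ cp f (f x) q = cp f (f x) y₂ := fun q hq => by
    obtain ⟨z, hz, hz'⟩ := mem_closure_iff_nhds.1 hq _ hy
    exact (hz (cp_subset hz')).imp (cp_eq_of_mem hz') (cp_eq_of_mem hz')
  have hU : cp f (f x) y₁ ∪ cp f (f x) y₂ = cp f (f x) p ∪ cp f (f x) p' := by
    rcases key p h1.clos with a | a <;> rcases key p' h2.clos with b | b
    · exact absurd (a.trans b.symm) hne
    · rw [a, b]
    · rw [a, b, union_comm]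
    · exact absurd (a.trans b.symm) hne
  obtain ⟨s, hs, h3⟩ := h.stab (U := cp f (f x) p ∪ cp f (f x) p') (d := f x) fun z hz => by
    by_cases e : z = x
    · rw [e, ← hU]; exact hy
    · have hm : f z = f x → ¬Mer f z := fun e' hm => e (h.inj (h.mem_of_mer hm) hx e')
      rw [closure_union] at hz
      rcases hz with hz | hz
      · exact (h.ev_of_closure hz hm).mono fun _ a b => Or.inl (a b)
      · exact (h.ev_of_closure hz hm).mono fun _ a b => Or.inr (a b)
  obtain ⟨y, hy, hy'⟩ := h1.below s hs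
  rcases h3 p (Or.inl (mem_cp h1.lt)) y hy (h1.lt.trans hy') with a | a
  · exact absurd (h1.top y a) (not_le.2 hy')
  · exact absurd (h2.top y a) (not_le.2 (hlt.trans hy'))

/-- the elder rule -/
theorem Loc.elder (h : Loc f Cr) (t : ℝ) (F : Finset X) (hF : F ⊆ Cr)
    (h1 : ∀ p ∈ F, ∀ᶠ z in 𝓝 p, f z ≤ f p) (h2 : ∀ p ∈ F, ∃ y ∈ cp f t p, f p < f y) :
    ∃ q : X → X, InjOn q F ∧ ∀ p ∈ F, q p ∈ Cr ∧ Mer f (q p) ∧ t < f (q p) ∧ f (q p) < f p := by
  have h3 : ∀ p, ∃ x, p ∈ F → t < f x ∧ Death f p x := fun p => by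
    by_cases hp : p ∈ F
    · obtain ⟨x, hx⟩ := h.exists_death (h1 p hp) (h2 p hp)
      exact ⟨x, fun _ => hx⟩
    · exact ⟨p, fun h => absurd h hp⟩
  choose q hq using h3
  refine ⟨q, fun p hp p' hp' e => h.inj (hF hp) (hF hp') ?_, fun p hp =>
    ⟨h.mem_of_mer (hq p hp).2.mer, (hq p hp).2.mer, (hq p hp).1, (hq p hp).2.lt⟩⟩
  have a := (hq p hp).2
  have b := (hq p' hp').2
  rw [← e] at b
  exact le_antisymm (not_lt.1 (h.death_lt a b)) (not_lt.1 (h.death_lt b a))

end Vale.Agent.P218UY
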