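import Vale.Agent.P218UY.Tr
import Vale.Agent.P218UE.Basic
import Mathlib.Analysis.Calculus.InverseFunctionTheorem.ContDiff

/-! Charts of the surface at regular and at critical points. -/

open Set Filter Topology Metric
open scoped RealInnerProductSpace

namespace Vale.Agent.P218UY

open Vale.Agent.P218UA Vale.Agent.P218UL Vale.Agent.P218UE

lemma Jet.comp {E P : Type*} [NormedAddCommGroup E] [NormedSpace ℝ E] [NormedAddCommGroup P]
    [NormedSpace ℝ P] {h : E → ℝ} {h' : E → E →L[ℝ] ℝ} {h'' : E →L[ℝ] E →L[ℝ] ℝ} {g : P → E}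
    (h1 : ∀ y, HasFDerivAt h (h' y) y) (h2 : HasStrictFDerivAt h' h'' (g 0)) (h0 : h' (g 0) = 0)
    (hg : ContDiffAt ℝ 2 g 0) : ∃ F' Q, Jet (h ∘ g) F' Q ∧
      ∀ p q, Q p q = h'' (fderiv ℝ g 0 p) (fderiv ℝ g 0 q) := by
  have a1 := (hg.fderiv_right (m := 1) (by norm_num)).hasStrictFDerivAt one_ne_zero
  have a2 := hg.hasStrictFDerivAt two_ne_zero
  refine ⟨fun p => (h' (g p)).comp (fderiv ℝ g p), _, ⟨?_, by simp [h0],
    (h2.comp 0 a2).clm_comp a1⟩, fun p q => by simp [h0]⟩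
  filter_upwards [hg.eventually (by simp)] with p hp
  exact (h1 _).comp p (hp.differentiableAt two_ne_zero).hasFDerivAt

lemma exists_amb {g : E3 → ℝ × ℝ × ℝ} {x : E3} {A : E3 →L[ℝ] ℝ × ℝ × ℝ}
    (hg : ContDiffAt ℝ 2 g x) (hA : HasFDerivAt g A x) (hi : ∀ v, A v = 0 → v = 0) :
    ∃ G : OpenPartialHomeomorph E3 (ℝ × ℝ × ℝ), (∀ y, G y = g y) ∧ x ∈ G.source ∧
      ContDiffAt ℝ 2 G.symm (g x) ∧ ∀ u, fderiv ℝ G.symm (g x) (A u) = u := by
  let B : E3 ≃L[ℝ] ℝ × ℝ × ℝ := (A.toLinearMap.linearEquivOfInjective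
    ((injective_iff_map_eq_zero _).2 hi) (by simp)).toContinuousLinearEquiv
  have hB : HasFDerivAt g (B : E3 →L[ℝ] ℝ × ℝ × ℝ) x := hA
  have h1 : ContDiffAt ℝ 2 (hg.toOpenPartialHomeomorph g hB two_ne_zero).symm (g x) :=
    hg.to_localInverse hB two_ne_zero
  have h2 := hg.mem_toOpenPartialHomeomorph_source hB two_ne_zero
  refine ⟨_, fun _ => rfl, h2, h1, fun u => ?_⟩
  have h3 := ((h1.differentiableAt two_ne_zero).hasFDerivAt.comp x hA).congr_of_eventuallyEq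
    (f₁ := id) ((OpenPartialHomeomorph.eventually_left_inverse _ h2).mono fun y hy => hy.symm)
  exact congrArg (fun L : E3 →L[ℝ] E3 => L u) (h3.unique (hasFDerivAt_id x))

lemma hasFDerivAt_innerSL {w : E3 → ℝ} {x : E3} (h : DifferentiableAt ℝ w x) :
    HasFDerivAt w (innerSL ℝ (gradient w x)) x :=
  h.hasFDerivAt.congr_fderiv (by ext v; simp)

variable {w f : E3 → ℝ}

/-- the rotated tangential gradient -/
noncomputable def rot (w f : E3 → ℝ) (y : E3) : E3 := cr (gradient w y) (gradient f y)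

lemma rot_eq_zero (hw : IsSurf w) {x : E3} (hx : w x = 0) : rot w f x = 0 ↔ gM w f x = 0 := by
  have : ‖rot w f x‖ ^ 2 = ‖gM w f x‖ ^ 2 := by
    rw [rot, gM, normSq_cr, normSq_gT (norm_nu hw hx), norm_nu hw hx]
    ring
  rw [← norm_eq_zero, ← norm_eq_zero (a := gM w f x), ← sq_eq_zero_iff, this, sq_eq_zero_iff]

lemma reg_amb (hw : IsSurf w) (hf : ContDiff ℝ 2 f) {x : E3} (h : rot w f x ≠ 0) :
    ∃ G : OpenPartialHomeomorph E3 (ℝ × ℝ × ℝ), (∀ y, G y = (w y, f y, ⟪rot w f x, y⟫)) ∧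
      x ∈ G.source := by
  obtain ⟨G, h1, h2, -⟩ := exists_amb (g := fun y => (w y, f y, ⟪rot w f x, y⟫)) (x := x)
    ((surf2 hw x).prodMk (hf.contDiffAt.prodMk (innerSL ℝ (rot w f x)).contDiff.contDiffAt))
    ((hasFDerivAt_innerSL ((surf2 hw x).differentiableAt two_ne_zero)).prodMk
      ((hasFDerivAt_innerSL (hf.differentiable two_ne_zero x)).prodMk
        (innerSL ℝ (rot w f x)).hasFDerivAt)) fun v hv => by
      have a1 : ⟪gradient w x, v⟫ = 0 := congrArg Prod.fst hv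
      have a2 : ⟪gradient f x, v⟫ = 0 := congrArg (fun p => p.2.1) hv
      have a3 : ⟪rot w f x, v⟫ = 0 := congrArg (fun p => p.2.2) hv
      have a4 : cr v (rot w f x) = 0 := by
        rw [rot, cr_cr, real_inner_comm, a2, real_inner_comm, a1]
        simp
      have a5 := normSq_cr v (rot w f x)
      rw [a4, real_inner_comm, a3] at a5
      have a6 : ‖v‖ ^ 2 * ‖rot w f x‖ ^ 2 = 0 := by simpa using a5.symm
      simpa [h] using a6
  exact ⟨G, h1, h2⟩

lemma reg_chart (hw : IsSurf w) (hf : ContDiff ℝ 2 f) (x : {y | w y = 0}) (h : gM w f x ≠ 0) :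
    ∃ e : OpenPartialHomeomorph {y | w y = 0} (ℝ × ℝ), x ∈ e.source ∧ ∀ y, (e y).1 = f y := by
  obtain ⟨G, h1, h2⟩ := reg_amb hw hf (mt (rot_eq_zero hw x.2).1 h)
  obtain ⟨e, h3, h4⟩ := exists_sub G (fun y => by rw [h1]) x
  exact ⟨e, (h4 x).2 h2, fun y => by rw [h3, h1]⟩

lemma grad_eq {x : E3} (h : gM w f x = 0) :
    gradient f x = ⟪gradient f x, gradient w x⟫ • gradient w x := by
  rw [real_inner_comm]
  exact sub_eq_zero.1 h

lemma crit_chart (hw : IsSurf w) (hf : ContDiff ℝ 2 f) (x : {y | w y = 0}) (hx : gM w f x = 0)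
    {e₁ e₂ : E3} (h : Fr (gradient w x) e₁ e₂) :
    ∃ (e : OpenPartialHomeomorph {y | w y = 0} (ℝ × ℝ)) (F : ℝ × ℝ → ℝ) (F' : _) (Q : _),
      x ∈ e.source ∧ (∀ y, e y = (⟪e₁, y.1 - x⟫, ⟪e₂, y.1 - x⟫)) ∧
      (∀ z ∈ e.source, F (e z) = f z) ∧ Jet F F' Q ∧
      ∀ p q, Q p q = ⟪hM w f x (p.1 • e₁ + p.2 • e₂), q.1 • e₁ + q.2 • e₂⟫ := by
  have hw2 : ContDiff ℝ 2 w := hw.smooth.of_le two_le
  obtain ⟨G, h1, h2, h3, h4⟩ := exists_amb (g := fun y => (w y, ⟪e₁, y - x⟫, ⟪e₂, y - x⟫)) (x := x)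
    (A := (innerSL ℝ (gradient w x)).prod ((innerSL ℝ e₁).prod (innerSL ℝ e₂)))
    ((surf2 hw x).prodMk ((contDiffAt_const.inner ℝ (contDiffAt_id.sub contDiffAt_const)).prodMk
      (contDiffAt_const.inner ℝ (contDiffAt_id.sub contDiffAt_const))))
    ((hasFDerivAt_innerSL ((surf2 hw x).differentiableAt two_ne_zero)).prodMk
      (((innerSL ℝ e₁).hasFDerivAt.comp x.1 ((hasFDerivAt_id _).sub_const _)).prodMk
        ((innerSL ℝ e₂).hasFDerivAt.comp x.1 ((hasFDerivAt_id _).sub_const _)))) fun v hv => by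
      have a1 : ⟪gradient w x, v⟫ = 0 := congrArg Prod.fst hv
      have a2 : ⟪e₁, v⟫ = 0 := congrArg (fun p => p.2.1) hv
      have a3 : ⟪e₂, v⟫ = 0 := congrArg (fun p => p.2.2) hv
      rw [h.expand v, a1, a2, a3]
      simp
  have x0 : w x = 0 := x.2
  simp only [x0, sub_self, inner_zero_right] at h3 h4
  obtain ⟨e, h5, h6⟩ := exists_sub G (fun y => by rw [h1]) x
  have i0 : HasFDerivAt (fun p : ℝ × ℝ => ((0 : ℝ), p)) (ContinuousLinearMap.inr ℝ ℝ (ℝ × ℝ)) 0 :=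
    (ContinuousLinearMap.inr ℝ ℝ (ℝ × ℝ)).hasFDerivAt
  have g2 : ContDiffAt ℝ 2 (fun p : ℝ × ℝ => G.symm (0, p)) 0 :=
    ContDiffAt.comp (g := G.symm) 0 h3 (contDiffAt_const.prodMk contDiffAt_id)
  have g0 : G.symm (0, 0) = x := by
    rw [← G.left_inv h2, h1]
    simp only [x0, sub_self, inner_zero_right]
    rfl
  have g1 : ∀ p : ℝ × ℝ, fderiv ℝ (fun p : ℝ × ℝ => G.symm (0, p)) 0 p = p.1 • e₁ + p.2 • e₂ := by
    intro p
    have := HasFDerivAt.comp (g := G.symm) 0 (h3.differentiableAt two_ne_zero).hasFDerivAt i0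
    rw [← h4 (p.1 • e₁ + p.2 • e₂)]
    refine (congrArg (fun L : ℝ × ℝ →L[ℝ] E3 => L p) this.fderiv).trans ?_
    simp [inner_add_right, real_inner_smul_right, -inner_gradient_left, h.o31, h.o32, h.n1, h.n2,
      h.o12, h.o21]
  set l := ⟪gradient f x, gradient w x⟫ with hl
  have s1 := ((hf.fderiv_right (m := 1) (by norm_num)).contDiffAt
    (x := x.1)).hasStrictFDerivAt one_ne_zero
  have s2 := ((hw2.fderiv_right (m := 1) (by norm_num)).contDiffAt
    (x := x.1)).hasStrictFDerivAt one_ne_zero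
  obtain ⟨F', Q, j1, j2⟩ := Jet.comp (h := fun y => f y - l • w y)
    (h' := fun y => fderiv ℝ f y - l • fderiv ℝ w y) (g := fun p : ℝ × ℝ => G.symm (0, p))
    (fun y => (hf.differentiable two_ne_zero y).hasFDerivAt.sub
      ((hw2.differentiable two_ne_zero y).hasFDerivAt.const_smul l))
    (by rw [g0]; exact s1.sub (s2.const_smul l))
    (by
      rw [g0]
      ext v
      simp only [sub_apply, smul_apply, ← inner_grad, zero_apply]
      rw [grad_eq hx, real_inner_smul_left]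
      exact sub_self _) g2
  refine ⟨e, _, F', Q, (h6 x).2 h2, fun y => by rw [h5, h1], fun z hz => ?_, j1, fun p q => ?_⟩
  · have z0 : w z = 0 := z.2
    have : ((0 : ℝ), e z) = G z := by rw [h5, h1, z0]
    simp only [Function.comp_apply, this, G.left_inv ((h6 z).1 hz), z0, smul_zero, sub_zero]
  · rw [j2, g1, g1, hM_apply, inner_sub_left, real_inner_smul_left, hs, hs,
      inner_fderiv_grad hf.contDiffAt, inner_fderiv_grad hw2.contDiffAt]
    rfl

/-- an adapted frame of eigenvectors -/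
lemma exists_eig {n : E3} (hn : ‖n‖ = 1) {B : E3 →L[ℝ] E3} (hB : ∀ a b, ⟪B a, b⟫ = ⟪a, B b⟫) :
    ∃ e₁ e₂, Fr n e₁ e₂ ∧ ⟪e₁, B e₂⟫ = 0 ∧ ⟪e₂, B e₂⟫ ≤ ⟪e₁, B e₁⟫ := by
  obtain ⟨e₁, e₂, h, h0⟩ : ∃ e₁ e₂, Fr n e₁ e₂ ∧ ⟪e₁, B e₂⟫ = 0 := by
    obtain ⟨a, b, h⟩ := exists_fr hn
    set u : ℝ → E3 := fun t => Real.cos t • a + Real.sin t • b with hu
    have c : Continuous u := by fun_prop
    have c' : Continuous fun t => ⟪u t, B (cr n (u t))⟫ :=
      c.inner (B.continuous.comp (continuous_cr continuous_const c))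
    obtain ⟨t, -, ht⟩ := intermediate_value_uIcc (a := 0) (b := Real.pi / 2) c'.continuousOn
      (show (0 : ℝ) ∈ _ by
        simp only [hu, Real.cos_zero, Real.sin_zero, Real.cos_pi_div_two, Real.sin_pi_div_two,
          one_smul, zero_smul, add_zero, zero_add, h.cr31, h.cr32, map_neg, inner_neg_right]
        rw [← hB a b, real_inner_comm, mem_uIcc]
        rcases le_total ⟪b, B a⟫ 0 with k | k
        · exact Or.inl ⟨k, by linarith⟩
        · exact Or.inr ⟨by linarith, k⟩)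
    refine ⟨u t, _, fr_of_unit hn ?_ ?_, ht⟩
    · have := h.normSq (u t)
      simp only [hu, inner_add_right, real_inner_smul_right, h.i11, h.i22, h.o12, h.o21, h.o31,
        h.o32] at this ⊢
      nlinarith [Real.cos_sq_add_sin_sq t, norm_nonneg (Real.cos t • a + Real.sin t • b)]
    · simp [hu, inner_add_right, real_inner_smul_right, h.o31, h.o32]
  rcases le_total ⟪e₂, B e₂⟫ ⟪e₁, B e₁⟫ with k | k
  · exact ⟨e₁, e₂, h, h0, k⟩
  · refine ⟨e₂, _, fr_of_unit hn h.n2 h.o32, ?_, ?_⟩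
    · rw [h.cr32, map_neg, inner_neg_right, ← hB, real_inner_comm, h0, neg_zero]
    · simpa [h.cr32] using k

end Vale.Agent.P218UY
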