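import Mathlib.Analysis.ODE.ExistUnique
import Mathlib.Analysis.Calculus.ContDiff.RCLike
import Mathlib.Analysis.Calculus.MeanValue
import Mathlib.Topology.Algebra.MetricSpace.Lipschitz
import Mathlib.Analysis.SpecialFunctions.Complex.LogDeriv
import Mathlib.Analysis.SpecialFunctions.ExpDeriv
import Mathlib.MeasureTheory.Integral.IntervalIntegral.FundThmCalculus

/-! Global integral curves of bounded vector fields, logarithms along curves. -/

open Set Metric Filter Topology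
open scoped NNReal

namespace Vale.Agent.P218UY

section ode

variable {E : Type*} [NormedAddCommGroup E] [NormedSpace ℝ E] [ProperSpace E] {v : E → E}

lemma exists_lip (hv : ContDiff ℝ 1 v) (x : E) (R : ℝ) :
    ∃ K, LipschitzOnWith K v (closedBall x R) :=
  (hv.locallyLipschitz.locallyLipschitzOn).exists_lipschitzOnWith_of_compact
    (isCompact_closedBall x R)

/-- uniqueness on an interval -/
lemma unique_Ioo (hv : ContDiff ℝ 1 v) {f g : ℝ → E} {a b t₀ : ℝ} (ht : t₀ ∈ Ioo a b)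
    (hf : ∀ t ∈ Ioo a b, HasDerivAt f (v (f t)) t) (hg : ∀ t ∈ Ioo a b, HasDerivAt g (v (g t)) t)
    (h0 : f t₀ = g t₀) : EqOn f g (Ioo a b) := by
  intro t ht'
  obtain ⟨a', ha1, ha2⟩ := exists_between (lt_min ht.1 ht'.1)
  obtain ⟨b', hb1, hb2⟩ := exists_between (max_lt ht.2 ht'.2)
  have hs : Icc a' b' ⊆ Ioo a b := fun s hs => ⟨ha1.trans_le hs.1, hs.2.trans_lt hb2⟩
  have c1 : ContinuousOn f (Icc a' b') := fun s h => (hf s (hs h)).continuousAt.continuousWithinAt
  have c2 : ContinuousOn g (Icc a' b') := fun s h => (hg s (hs h)).continuousAt.continuousWithinAt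
  obtain ⟨R1, h1⟩ := (isCompact_Icc.image_of_continuousOn c1).isBounded.subset_closedBall 0
  obtain ⟨R2, h2⟩ := (isCompact_Icc.image_of_continuousOn c2).isBounded.subset_closedBall 0
  obtain ⟨K, hK⟩ := exists_lip hv 0 (max R1 R2)
  have m1 : t₀ ∈ Ioo a' b' := ⟨ha2.trans_le (min_le_left _ _), (le_max_left _ _).trans_lt hb1⟩
  have m2 : t ∈ Ioo a' b' := ⟨ha2.trans_le (min_le_right _ _), (le_max_right _ _).trans_lt hb1⟩
  refine ODE_solution_unique_of_mem_Ioo (v := fun _ => v) (s := fun _ => closedBall 0 (max R1 R2))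
    (fun _ _ => hK) m1 (fun s h => ⟨hf s (hs (Ioo_subset_Icc_self h)), ?_⟩)
    (fun s h => ⟨hg s (hs (Ioo_subset_Icc_self h)), ?_⟩) h0 m2
  · exact closedBall_subset_closedBall (le_max_left _ _) (h1 ⟨s, Ioo_subset_Icc_self h, rfl⟩)
  · exact closedBall_subset_closedBall (le_max_right _ _) (h2 ⟨s, Ioo_subset_Icc_self h, rfl⟩)

/-- uniqueness of global integral curves -/
theorem unique_global (hv : ContDiff ℝ 1 v) {f g : ℝ → E} {t₀ : ℝ}
    (hf : ∀ t, HasDerivAt f (v (f t)) t) (hg : ∀ t, HasDerivAt g (v (g t)) t)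
    (h0 : f t₀ = g t₀) : f = g := by
  funext t
  refine unique_Ioo hv (a := min t t₀ - 1) (b := max t t₀ + 1) (t₀ := t₀) ⟨?_, ?_⟩
    (fun s _ => hf s) (fun s _ => hg s) h0 ⟨?_, ?_⟩
  · linarith [min_le_right t t₀]
  · linarith [le_max_right t t₀]
  · linarith [min_le_left t t₀]
  · linarith [le_max_left t t₀]

/-- a bounded vector field of class `C¹` has global integral curves -/
theorem exists_global (hv : ContDiff ℝ 1 v) {L : ℝ≥0} (hL : ∀ x, ‖v x‖ ≤ L) (x : E) :
    ∃ f : ℝ → E, f 0 = x ∧ ∀ t, HasDerivAt f (v (f t)) t := by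
  have h1 : ∀ n : ℕ, ∃ f : ℝ → E, f 0 = x ∧
      ∀ t ∈ Ioo (-(n + 1 : ℝ)) (n + 1), HasDerivAt f (v (f t)) t := by
    intro n
    have hn : (0 : ℝ) < n + 1 := by positivity
    obtain ⟨K, hK⟩ := exists_lip hv x (L * (n + 1))
    have hP : IsPicardLindelof (fun _ => v) (tmin := -(n + 1 : ℝ)) (tmax := n + 1)
        ⟨0, by constructor <;> linarith⟩ x (L * (n + 1)) 0 L K :=
      IsPicardLindelof.of_time_independent (fun y _ => hL y) (by simpa using hK) (by simp)
    obtain ⟨f, h0, hf⟩ := hP.exists_eq_forall_mem_Icc_hasDerivWithinAt₀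
    exact ⟨f, h0, fun t ht =>
      (hf t (Ioo_subset_Icc_self ht)).hasDerivAt (Icc_mem_nhds ht.1 ht.2)⟩
  choose f h0 hf using h1
  have h2 : ∀ m n : ℕ, m ≤ n → EqOn (f m) (f n) (Ioo (-(m + 1 : ℝ)) (m + 1)) := by
    intro m n hmn
    have hm : (0 : ℝ) < m + 1 := by positivity
    have : (m : ℝ) ≤ n := by exact_mod_cast hmn
    exact unique_Ioo hv (t₀ := 0) ⟨by linarith, hm⟩ (hf m)
      (fun t ht => hf n t ⟨by linarith [ht.1], by linarith [ht.2]⟩) (by rw [h0, h0])
  have h3 : ∀ t : ℝ, t ∈ Ioo (-((⌈|t|⌉₊ : ℕ) + 1 : ℝ)) ((⌈|t|⌉₊ : ℕ) + 1) := fun t => by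
    have := Nat.le_ceil |t|
    constructor <;> linarith [le_abs_self t, neg_abs_le t]
  have h4 : ∀ (n : ℕ) t, t ∈ Ioo (-(n + 1 : ℝ)) (n + 1) → f ⌈|t|⌉₊ t = f n t := by
    intro n t ht
    rcases le_total ⌈|t|⌉₊ n with h | h
    · exact h2 _ _ h (h3 t)
    · exact (h2 _ _ h ht).symm
  refine ⟨fun t => f ⌈|t|⌉₊ t, h0 _, fun t => ?_⟩
  refine (hf _ t (h3 t)).congr_of_eventuallyEq ?_
  filter_upwards [Ioo_mem_nhds (h3 t).1 (h3 t).2] with s hs using h4 _ s hs

end ode

section log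

open Complex

variable {f g : ℝ → ℂ}

lemma hasDerivAt_prim (hg : Continuous g) (t : ℝ) :
    HasDerivAt (fun s => ∫ u in (0 : ℝ)..s, g u) (g t) t :=
  (hg.integral_hasStrictDerivAt 0 t).hasDerivAt

/-- solution of the linear equation `f' = g f` -/
theorem eq_exp (hg : Continuous g) (hf : ∀ t, HasDerivAt f (g t * f t) t) (t : ℝ) :
    f t = f 0 * exp (∫ u in (0 : ℝ)..t, g u) := by
  have h1 : ∀ s, HasDerivAt (fun s => f s * exp (-∫ u in (0 : ℝ)..s, g u)) 0 s := fun s => by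
    have := (hf s).mul ((hasDerivAt_prim hg s).fun_neg.cexp)
    refine this.congr_deriv ?_
    ring
  have h2 := is_const_of_deriv_eq_zero (fun s => (h1 s).differentiableAt)
    (fun s => (h1 s).deriv) t 0
  simp only [intervalIntegral.integral_same, neg_zero, exp_zero, mul_one] at h2
  rw [← h2, mul_assoc, ← exp_add]
  simp

lemma im_integral (hg : Continuous g) (L : ℝ) :
    (∫ u in (0 : ℝ)..L, g u).im = ∫ u in (0 : ℝ)..L, (g u).im :=
  (ContinuousLinearMap.intervalIntegral_comp_comm imCLM (hg.intervalIntegrable 0 L)).symm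

/-- the winding of a closed curve is an integer -/
theorem wind_int (hg : Continuous g) (hf : ∀ t, HasDerivAt f (g t * f t) t) (h0 : f 0 ≠ 0)
    {L : ℝ} (hL : f L = f 0) : ∃ k : ℤ, ∫ u in (0 : ℝ)..L, (g u).im = k * (2 * Real.pi) := by
  have h := eq_exp hg hf L
  rw [hL] at h
  have h1 : exp (∫ u in (0 : ℝ)..L, g u) = 1 := by
    have := mul_left_cancel₀ h0 (h.symm.trans (mul_one _).symm)
    exact this
  obtain ⟨k, hk⟩ := exp_eq_one_iff.1 h1
  refine ⟨k, ?_⟩
  rw [← im_integral hg, hk]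
  simp

/-- a closed curve in the right half plane does not wind -/
theorem wind_zero (hg : Continuous g) (hf : ∀ t, HasDerivAt f (g t * f t) t)
    (h0 : ∀ t, 0 < (f t).re) {L : ℝ} (hL : f L = f 0) : ∫ u in (0 : ℝ)..L, (g u).im = 0 := by
  have h1 : ∀ t, HasDerivAt (fun s => log (f s)) (g t) t := fun t => by
    have hne : f t ≠ 0 := fun h => by simpa [h] using h0 t
    have := (hf t).clog_real (Or.inl (h0 t))
    convert this using 1
    field_simp
  have h2 := intervalIntegral.integral_eq_sub_of_hasDerivAt (a := 0) (b := L)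
    (fun t _ => h1 t) (hg.intervalIntegrable 0 L)
  rw [← im_integral hg, h2, hL]
  simp

end log

end Vale.Agent.P218UY
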