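import Mathlib.Analysis.Calculus.Deriv.MeanValue
import Mathlib.Analysis.Convex.Deriv
import Mathlib.Analysis.Normed.Module.Connected
import Mathlib.Analysis.Convex.Topology

/-! Superlevel sets of a function of two variables near a nondegenerate critical point. -/

open Set Filter Topology Metric

namespace Vale.Agent.P218UY

section top

variable {X : Type*} [TopologicalSpace X]

/-- near `x` the points higher than `x` lie in one connected subset of `N` -/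
def One (f : X → ℝ) (x : X) (N : Set X) : Prop :=
  ∃ U ⊆ N, IsPreconnected U ∧ (∀ z ∈ U, f x < f z) ∧ ∀ᶠ z in 𝓝 x, f x < f z → z ∈ U

/-- near `x` the points higher than `x` lie in two connected subsets of `N`, according to the sign
of `a` -/
def Two (f a : X → ℝ) (x : X) (N : Set X) : Prop :=
  ∃ U₁ ⊆ N, ∃ U₂ ⊆ N, IsPreconnected U₁ ∧ IsPreconnected U₂ ∧ (∀ z ∈ U₁, f x < f z) ∧
    (∀ z ∈ U₂, f x < f z) ∧ ∀ᶠ z in 𝓝 x, f x < f z → z ∈ U₁ ∧ 0 < a z ∨ z ∈ U₂ ∧ a z < 0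

end top

section jet

variable {P : Type*} [NormedAddCommGroup P] [NormedSpace ℝ P] {F : P → ℝ} {F' : P → P →L[ℝ] ℝ}
  {Q : P →L[ℝ] P →L[ℝ] ℝ}

/-- a critical point at the origin with the second derivative `Q` -/
structure Jet (F : P → ℝ) (F' : P → P →L[ℝ] ℝ) (Q : P →L[ℝ] P →L[ℝ] ℝ) : Prop where
  d1 : ∀ᶠ p in 𝓝 0, HasFDerivAt F (F' p) p
  zero : F' 0 = 0
  d2 : HasStrictFDerivAt F' Q 0

lemma Jet.neg (h : Jet F F' Q) : Jet (-F) (-F') (-Q) :=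
  ⟨h.d1.mono fun _ hp => hp.neg, by simp [h.zero], h.d2.neg⟩

lemma Jet.exists_radius (h : Jet F F' Q) {c : ℝ} (hc : 0 < c) :
    ∃ r > 0, (∀ p, ‖p‖ < r → HasFDerivAt F (F' p) p) ∧
      ∀ p q, ‖p‖ < r → ‖q‖ < r → ∀ v, Q (p - q) v - c * ‖p - q‖ * ‖v‖ ≤ F' p v - F' q v := by
  have h1 := h.d2.isLittleO.def hc
  rw [nhds_prod_eq] at h1
  obtain ⟨A, hA, B, hB, hAB⟩ := eventually_prod_iff.1 h1
  obtain ⟨r, hr, h2⟩ := Metric.eventually_nhds_iff_ball.1 (h.d1.and (hA.and hB))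
  simp only [mem_ball_zero_iff] at h2
  refine ⟨r, hr, fun p hp => (h2 p hp).1, fun p q hp hq v => ?_⟩
  have h3 := hAB (h2 p hp).2.1 (h2 q hq).2.2
  have h4 := (F' p - F' q - Q (p - q)).le_opNorm v
  have h5 := mul_le_mul_of_nonneg_right h3 (norm_nonneg v)
  have h6 := neg_abs_le ((F' p - F' q - Q (p - q)) v)
  rw [Real.norm_eq_abs] at h4
  simp only [sub_apply] at h4 h5 h6
  linarith

lemma hasDerivAt_line {p v : P} {t : ℝ} (h : HasFDerivAt F (F' (p + t • v)) (p + t • v)) :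
    HasDerivAt (fun s : ℝ => F (p + s • v)) (F' (p + t • v) v) t := by
  have h1 : HasDerivAt (fun s : ℝ => p + s • v) v t := by
    simpa using ((hasDerivAt_id t).smul_const v).const_add p
  exact h.comp_hasDerivAt t h1

lemma Jet.radial (h : Jet F F' Q) {c : ℝ} (hc : 0 < c) :
    ∀ᶠ p in 𝓝 (0 : P), c * ‖p‖ ^ 2 < Q p p → F 0 < F p := by
  obtain ⟨r, hr, h1, h2⟩ := h.exists_radius hc
  filter_upwards [ball_mem_nhds (0 : P) hr] with p hp hQ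
  rw [mem_ball_zero_iff] at hp
  have h3 : ∀ t ∈ Icc (0 : ℝ) 1, ‖0 + t • p‖ < r := fun t ht => by
    rw [zero_add, norm_smul, Real.norm_of_nonneg ht.1]
    nlinarith [norm_nonneg p, ht.1, ht.2]
  have h4 : StrictMonoOn (fun s : ℝ => F (0 + s • p)) (Icc 0 1) := by
    refine strictMonoOn_of_deriv_pos (convex_Icc _ _)
      (fun t ht => (hasDerivAt_line (h1 _ (h3 t ht))).continuousAt.continuousWithinAt)
      fun t ht => ?_
    rw [interior_Icc] at ht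
    have h5 := h3 t (Ioo_subset_Icc_self ht)
    rw [(hasDerivAt_line (h1 _ h5)).deriv]
    have h6 := h2 _ 0 h5 (by simpa using hr) p
    simp only [zero_add, sub_zero, h.zero, map_smul, smul_apply, smul_eq_mul,
      zero_apply, norm_smul, Real.norm_of_nonneg ht.1.le] at h6 ⊢
    nlinarith [ht.1]
  simpa using h4 (left_mem_Icc.2 zero_le_one) (right_mem_Icc.2 zero_le_one) zero_lt_one

lemma Jet.convex (h : Jet F F' Q) {v : P} (hv : ‖v‖ = 1) (hQ : 0 < Q v v) :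
    ∃ r > 0, ∀ p, ‖p‖ < r → ConvexOn ℝ (Ioo (-r) r) fun t : ℝ => F (p + t • v) := by
  obtain ⟨r, hr, h1, h2⟩ := h.exists_radius hQ
  refine ⟨r / 2, by positivity, fun p hp => ?_⟩
  have h3 : ∀ t ∈ Ioo (-(r / 2)) (r / 2), ‖p + t • v‖ < r := fun t ht => by
    have := norm_add_le p (t • v)
    rw [norm_smul, hv, Real.norm_eq_abs] at this
    linarith [abs_lt.2 ht]
  refine MonotoneOn.convexOn_of_deriv (convex_Ioo _ _)
    (fun t ht => (hasDerivAt_line (h1 _ (h3 t ht))).continuousAt.continuousWithinAt)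
    (fun t ht => (hasDerivAt_line (h1 _ (h3 t
      (interior_subset ht)))).differentiableAt.differentiableWithinAt) fun s hs t ht hst => ?_
  rw [interior_Ioo] at hs ht
  rw [(hasDerivAt_line (h1 _ (h3 t ht))).deriv, (hasDerivAt_line (h1 _ (h3 s hs))).deriv]
  have h4 := h2 _ _ (h3 t ht) (h3 s hs) v
  have e : p + t • v - (p + s • v) = (t - s) • v := by rw [sub_smul]; abel
  rw [e, norm_smul, hv, Real.norm_of_nonneg (sub_nonneg.2 hst)] at h4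
  simp only [map_smul, smul_apply, smul_eq_mul] at h4
  linarith

end jet

section plane

variable {F : ℝ × ℝ → ℝ} {F' : ℝ × ℝ → ℝ × ℝ →L[ℝ] ℝ} {Q : ℝ × ℝ →L[ℝ] ℝ × ℝ →L[ℝ] ℝ} {r : ℝ}

/-- the shape of a saddle in a box -/
structure Shape (F : ℝ × ℝ → ℝ) (r : ℝ) : Prop where
  pos : 0 < r
  cont : ContinuousOn F (Ioo (-r) r ×ˢ Ioo (-r) r)
  cvx : ∀ b ∈ Ioo (-r) r, ConvexOn ℝ (Ioo (-r) r) fun a => F (a, b)
  ccv : ∀ a ∈ Ioo (-r) r, ConcaveOn ℝ (Ioo (-r) r) fun b => F (a, b)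
  up : ∀ a ∈ Ioo (-r) r, a ≠ 0 → F 0 < F (a, 0)
  dn : ∀ b ∈ Ioo (-r) r, b ≠ 0 → F (0, b) < F 0

lemma Shape.swap (h : Shape F r) : Shape (fun p => -F p.swap) r :=
  ⟨h.pos, (h.cont.comp continuous_swap.continuousOn fun _ hp => ⟨hp.2, hp.1⟩).neg,
    fun b hb => (h.ccv b hb).neg, fun a ha => (h.cvx a ha).neg,
    fun a ha h0 => neg_lt_neg (h.dn a ha h0), fun b hb h0 => neg_lt_neg (h.up b hb h0)⟩

lemma Shape.mono (h : Shape F r) {s : ℝ} (hs : 0 < s) (hsr : s ≤ r) : Shape F s := by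
  have h1 : Ioo (-s) s ⊆ Ioo (-r) r := Ioo_subset_Ioo (by linarith) hsr
  exact ⟨hs, h.cont.mono (prod_mono h1 h1), fun b hb => (h.cvx b (h1 hb)).subset h1 (convex_Ioo _ _),
    fun a ha => (h.ccv a (h1 ha)).subset h1 (convex_Ioo _ _), fun a ha => h.up a (h1 ha),
    fun b hb => h.dn b (h1 hb)⟩

lemma Shape.sector (h : Shape F r) {J : Set ℝ} (hJ : IsPreconnected J) (h1 : J ⊆ Ioo (-r) r)
    (h0 : (0 : ℝ) ∉ J) : IsPreconnected {p | p ∈ J ×ˢ Ioo (-r) r ∧ F 0 < F p} := by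
  have hz : (0 : ℝ) ∈ Ioo (-r) r := ⟨by linarith [h.pos], h.pos⟩
  have hu : ∀ a ∈ J, F 0 < F (a, 0) := fun a ha => h.up a (h1 ha) fun e => h0 (e ▸ ha)
  rcases J.eq_empty_or_nonempty with rfl | ⟨a₀, ha₀⟩
  · simpa using isPreconnected_empty
  refine isPreconnected_of_forall (a₀, 0) fun p ⟨⟨hp1, hp2⟩, hp⟩ => ?_
  refine ⟨J ×ˢ {0} ∪ {p.1} ×ˢ {b | b ∈ Ioo (-r) r ∧ F 0 < F (p.1, b)}, ?_, Or.inl ⟨ha₀, rfl⟩,
    Or.inr ⟨rfl, hp2, hp⟩, IsPreconnected.union (p.1, 0) ⟨hp1, rfl⟩ ⟨rfl, hz, hu _ hp1⟩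
      (hJ.prod isPreconnected_singleton) (isPreconnected_singleton.prod
        ((h.ccv _ (h1 hp1)).convex_gt (F 0)).isPreconnected)⟩
  rintro ⟨a, b⟩ (⟨ha, rfl⟩ | ⟨rfl, hb⟩)
  · exact ⟨⟨ha, hz⟩, hu a ha⟩
  · exact ⟨⟨hp1, hb.1⟩, hb.2⟩

lemma box_mem (hr : 0 < r) : Ioo (-r) r ×ˢ Ioo (-r) r ∈ 𝓝 (0 : ℝ × ℝ) :=
  prod_mem_nhds (Ioo_mem_nhds (by simpa using hr) hr) (Ioo_mem_nhds (by simpa using hr) hr)

lemma exists_box {N : Set (ℝ × ℝ)} (hN : N ∈ 𝓝 (0 : ℝ × ℝ)) (hr : 0 < r) :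
    ∃ s > 0, s ≤ r ∧ Ioo (-s) s ×ˢ Ioo (-s) s ⊆ N := by
  obtain ⟨s, hs, h1⟩ := Metric.mem_nhds_iff.1 hN
  refine ⟨min s r, lt_min hs hr, min_le_right _ _, fun p hp => h1 ?_⟩
  rw [mem_ball_zero_iff, Prod.norm_def, max_lt_iff, Real.norm_eq_abs, Real.norm_eq_abs]
  exact ⟨(abs_lt.2 hp.1).trans_le (min_le_left _ _), (abs_lt.2 hp.2).trans_le (min_le_left _ _)⟩

lemma Shape.two (h : Shape F r) {N : Set (ℝ × ℝ)} (hN : N ∈ 𝓝 (0 : ℝ × ℝ)) :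
    Two F Prod.fst 0 N := by
  obtain ⟨s, hs, h1, h2⟩ := exists_box hN h.pos
  have h' := h.mono hs h1
  have a1 : Ioo 0 s ⊆ Ioo (-s) s := Ioo_subset_Ioo (by linarith) le_rfl
  have a2 : Ioo (-s) 0 ⊆ Ioo (-s) s := Ioo_subset_Ioo le_rfl hs.le
  refine ⟨_, fun p hp => h2 ⟨a1 hp.1.1, hp.1.2⟩, _, fun p hp => h2 ⟨a2 hp.1.1, hp.1.2⟩,
    h'.sector isPreconnected_Ioo a1 (by simp), h'.sector isPreconnected_Ioo a2 (by simp),
    fun p hp => hp.2, fun p hp => hp.2, ?_⟩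
  filter_upwards [box_mem hs] with p hp hF
  rcases lt_trichotomy p.1 0 with e | e | e
  · exact Or.inr ⟨⟨⟨⟨hp.1.1, e⟩, hp.2⟩, hF⟩, e⟩
  · exfalso
    obtain ⟨a, b⟩ := p
    obtain rfl : a = 0 := e
    by_cases hb : b = 0
    · rw [hb] at hF
      exact lt_irrefl _ hF
    · exact lt_asymm hF (h'.dn b hp.2 hb)
  · exact Or.inl ⟨⟨⟨⟨e, hp.1.2⟩, hp.2⟩, hF⟩, e⟩

lemma Shape.two' (h : Shape F r) {N : Set (ℝ × ℝ)} (hN : N ∈ 𝓝 (0 : ℝ × ℝ)) :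
    Two (-F) Prod.snd 0 N := by
  have c : Tendsto (Prod.swap : ℝ × ℝ → ℝ × ℝ) (𝓝 0) (𝓝 0) := continuous_swap.tendsto 0
  obtain ⟨U₁, a1, U₂, a2, b1, b2, c1, c2, d⟩ := h.swap.two (c hN)
  refine ⟨Prod.swap '' U₁, image_subset_iff.2 a1, Prod.swap '' U₂, image_subset_iff.2 a2,
    b1.image _ continuous_swap.continuousOn, b2.image _ continuous_swap.continuousOn, ?_, ?_, ?_⟩
  · rintro _ ⟨p, hp, rfl⟩
    exact c1 p hp
  · rintro _ ⟨p, hp, rfl⟩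
    exact c2 p hp
  · filter_upwards [c d] with p hp hF
    exact (hp hF).imp (fun a => ⟨⟨_, a.1, rfl⟩, a.2⟩) fun a => ⟨⟨_, a.1, rfl⟩, a.2⟩

lemma Shape.frequently (h : Shape F r) :
    ∃ᶠ p in 𝓝 (0 : ℝ × ℝ), F p = F 0 ∧ 0 < p.1 ∧ 0 < p.2 := by
  refine frequently_iff.2 fun {N} hN => ?_
  obtain ⟨s, hs, h1, h2⟩ := exists_box hN h.pos
  have h' := h.mono hs h1
  have h3 : ∀ t ∈ Icc 0 (s / 2), (t, s / 2 - t) ∈ Ioo (-s) s ×ˢ Ioo (-s) s := fun t ht =>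
    ⟨⟨by linarith [ht.1], by linarith [ht.2]⟩, by linarith [ht.2], by linarith [ht.1]⟩
  have h4 : ContinuousOn (fun t => F (t, s / 2 - t)) (Icc 0 (s / 2)) :=
    h'.cont.comp (by fun_prop) h3
  have h5 : s / 2 ∈ Ioo (-s) s := ⟨by linarith, by linarith⟩
  obtain ⟨t, ht, e⟩ := intermediate_value_Ioo (by positivity) h4
    (show F 0 ∈ _ from ⟨by simpa using h'.dn _ h5 (by positivity),
      by simpa using h'.up _ h5 (by positivity)⟩)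
  exact ⟨_, h2 (h3 t (Ioo_subset_Icc_self ht)), e, ht.1, sub_pos.2 ht.2⟩

lemma Jet.axis (h : Jet F F' Q) {v : ℝ × ℝ} (hv : ‖v‖ = 1) (hQ : 0 < Q v v) :
    ∀ᶠ t in 𝓝 (0 : ℝ), t ≠ 0 → F 0 < F (t • v) := by
  have c : Tendsto (fun t : ℝ => t • v) (𝓝 0) (𝓝 0) :=
    Continuous.tendsto' (by fun_prop) _ _ (by simp)
  filter_upwards [c (h.radial (half_pos hQ))] with t ht h0
  refine ht ?_
  simp only [norm_smul, hv, mul_one, map_smul, smul_apply, smul_eq_mul,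
    Real.norm_eq_abs, sq_abs]
  nlinarith [mul_pos hQ (sq_pos_of_ne_zero h0)]

theorem Jet.shape (h : Jet F F' Q) (h1 : 0 < Q (1, 0) (1, 0)) (h2 : Q (0, 1) (0, 1) < 0) :
    ∃ r, Shape F r := by
  have n1 : ‖((1, 0) : ℝ × ℝ)‖ = 1 := by simp [Prod.norm_def]
  have n2 : ‖((0, 1) : ℝ × ℝ)‖ = 1 := by simp [Prod.norm_def]
  have h2' : 0 < (-Q) (0, 1) (0, 1) := by simpa using h2
  obtain ⟨r₁, a1, b1⟩ := h.convex n1 h1
  obtain ⟨r₂, a2, b2⟩ := h.neg.convex n2 h2'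
  obtain ⟨r₃, a3, b3⟩ := Metric.eventually_nhds_iff_ball.1 ((h.axis n1 h1).and (h.neg.axis n2 h2'))
  obtain ⟨r, hr, c1, c2⟩ := exists_box h.d1 (lt_min a1 (lt_min a2 a3))
  have e1 : r ≤ r₁ := c1.trans (min_le_left _ _)
  have e2 : r ≤ r₂ := c1.trans ((min_le_right _ _).trans (min_le_left _ _))
  have e3 : r ≤ r₃ := c1.trans ((min_le_right _ _).trans (min_le_right _ _))
  refine ⟨r, hr, fun p hp => (c2 hp).continuousAt.continuousWithinAt, fun b hb => ?_,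
    fun a ha => ?_, fun a ha h0 => ?_, fun b hb h0 => ?_⟩
  · have := (b1 (0, b) (by simpa [Prod.norm_def, a1] using (abs_lt.2 hb).trans_le e1)).subset
      (Ioo_subset_Ioo (neg_le_neg e1) e1) (convex_Ioo _ _)
    simpa using this
  · have := (b2 (a, 0) (by simpa [Prod.norm_def, a2] using (abs_lt.2 ha).trans_le e2)).subset
      (Ioo_subset_Ioo (neg_le_neg e2) e2) (convex_Ioo _ _)
    refine neg_convexOn_iff.1 (this.congr fun t _ => ?_)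
    simp
  · simpa using (b3 a (by simpa using (abs_lt.2 ha).trans_le e3)).1 h0
  · simpa using (b3 b (by simpa using (abs_lt.2 hb).trans_le e3)).2 h0

theorem Jet.min (h : Jet F F' Q) {m₁ m₂ : ℝ} (h1 : 0 < m₁) (h2 : 0 < m₂)
    (hQ : ∀ p, Q p p = m₁ * p.1 ^ 2 + m₂ * p.2 ^ 2) :
    ∀ᶠ p in 𝓝 (0 : ℝ × ℝ), p ≠ 0 → F 0 < F p := by
  filter_upwards [h.radial (half_pos (lt_min h1 h2))] with p hp h0
  refine hp ?_
  have h3 : ‖p‖ ^ 2 ≤ p.1 ^ 2 + p.2 ^ 2 := by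
    rw [Prod.norm_def, Real.norm_eq_abs, Real.norm_eq_abs]
    rcases max_cases |p.1| |p.2| with e | e <;> rw [e.1, sq_abs] <;> nlinarith
  have h4 : 0 < ‖p‖ ^ 2 := by positivity
  rw [hQ]
  nlinarith [lt_min h1 h2, mul_le_mul_of_nonneg_right (min_le_left m₁ m₂) (sq_nonneg p.1),
    mul_le_mul_of_nonneg_right (min_le_right m₁ m₂) (sq_nonneg p.2)]

/-- a strict local minimum -/
theorem one_of_min (h : ∀ᶠ p in 𝓝 (0 : ℝ × ℝ), p ≠ 0 → F 0 < F p) {N : Set (ℝ × ℝ)}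
    (hN : N ∈ 𝓝 (0 : ℝ × ℝ)) : One F 0 N := by
  obtain ⟨r, hr, h1⟩ := Metric.mem_nhds_iff.1 (inter_mem h hN)
  refine ⟨ball 0 r \ {0}, fun p hp => (h1 hp.1).2, ?_, fun p hp => (h1 hp.1).1 hp.2, ?_⟩
  · have h2 : 1 < Module.rank ℝ (ℝ × ℝ) := by simp [one_add_one_eq_two]
    have h3 := ((isPreconnected_Ioo (a := (0 : ℝ)) (b := r)).prod
      (isPreconnected_sphere h2 (0 : ℝ × ℝ) 1)).image (fun q : ℝ × ℝ × ℝ => q.1 • q.2) (by fun_prop)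
    convert h3 using 1
    ext p
    constructor
    · rintro ⟨hp, h0⟩
      have h4 : 0 < ‖p‖ := norm_pos_iff.2 h0
      refine ⟨(‖p‖, ‖p‖⁻¹ • p), ⟨⟨h4, mem_ball_zero_iff.1 hp⟩, ?_⟩, ?_⟩
      · simp [norm_smul, h4.ne']
      · simp [smul_smul, h4.ne']
    · rintro ⟨⟨t, q⟩, ⟨ht, hq⟩, rfl⟩
      have h4 : ‖t • q‖ = t := by
        rw [norm_smul, mem_sphere_zero_iff_norm.1 hq, Real.norm_of_nonneg ht.1.le, mul_one]
      exact ⟨mem_ball_zero_iff.2 (h4.trans_lt ht.2), norm_pos_iff.1 (ht.1.trans_eq h4.symm)⟩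
  · filter_upwards [ball_mem_nhds (0 : ℝ × ℝ) hr] with p hp hF
    exact ⟨hp, fun e => lt_irrefl _ (by rwa [mem_singleton_iff.1 e] at hF)⟩

end plane

end Vale.Agent.P218UY
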