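import Vale.Agent.P218UY.Count
import Vale.Agent.P218UY.Plane
import Mathlib.Geometry.Manifold.ChartedSpace

/-! Transfer of the local structure of superlevel sets through charts, labels of level curves. -/

open Set Filter Topology Metric

namespace Vale.Agent.P218UY

section transfer

variable {X P : Type*} [TopologicalSpace X] [TopologicalSpace P] {f a : X → ℝ} {F A : P → ℝ}
  {x : X} {N : Set X} {e : OpenPartialHomeomorph X P}

lemma One.not_mer (h : One f x N) : ¬Mer f x := by
  obtain ⟨U, -, h1, h2, h3⟩ := h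
  exact not_mer_of h1 h2 h3

lemma two_of_not_mer (h : ¬Mer f x) :
    ∃ y₁ y₂, ∀ᶠ z in 𝓝 x, f x < f z → z ∈ cp f (f x) y₁ ∪ cp f (f x) y₂ := by
  obtain ⟨y, hy⟩ := not_not.1 h
  exact ⟨y, y, hy.mono fun z hz h => Or.inl (hz h)⟩

lemma exists_subset_cp {U : Set X} (h1 : IsPreconnected U) (h2 : ∀ z ∈ U, f x < f z) :
    ∃ y, U ⊆ cp f (f x) y := by
  rcases U.eq_empty_or_nonempty with rfl | ⟨y, hy⟩
  · exact ⟨x, empty_subset _⟩
  · exact ⟨y, subset_cp h1 h2 hy⟩

lemma Two.two (h : Two f a x N) :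
    ∃ y₁ y₂, ∀ᶠ z in 𝓝 x, f x < f z → z ∈ cp f (f x) y₁ ∪ cp f (f x) y₂ := by
  obtain ⟨U₁, -, U₂, -, a1, a2, b1, b2, c⟩ := h
  obtain ⟨y₁, h1⟩ := exists_subset_cp a1 b1
  obtain ⟨y₂, h2⟩ := exists_subset_cp a2 b2
  exact ⟨y₁, y₂, c.mono fun z hz h => (hz h).imp (fun k => h1 k.1) fun k => h2 k.1⟩

lemma not_mer_of_max (h : ∀ᶠ z in 𝓝 x, f z ≤ f x) : ¬Mer f x :=
  not_mer_of isPreconnected_empty (fun _ h => h.elim)
    (h.mono fun _ hz h' => absurd hz (not_le.2 h'))

lemma lt_of_image (hx : x ∈ e.source) (hF : ∀ z ∈ e.source, F (e z) = f z) {U : Set P}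
    (hU : U ⊆ e.target) (h : ∀ p ∈ U, F (e x) < F p) : ∀ z ∈ e.symm '' U, f x < f z := by
  rintro _ ⟨p, hp, rfl⟩
  rw [← hF x hx, ← hF _ (e.map_target (hU hp)), e.right_inv (hU hp)]
  exact h p hp

lemma One.transfer (hx : x ∈ e.source) (hF : ∀ z ∈ e.source, F (e z) = f z)
    (h : One F (e x) e.target) : One f x univ := by
  obtain ⟨U, h0, h1, h2, h3⟩ := h
  refine ⟨e.symm '' U, subset_univ _, h1.image _ (e.continuousOn_symm.mono h0),
    lt_of_image hx hF h0 h2, ?_⟩
  filter_upwards [e.continuousAt hx h3, e.open_source.mem_nhds hx] with z hz hz' h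
  exact ⟨e z, hz (by rwa [hF x hx, hF z hz']), e.left_inv hz'⟩

lemma Two.transfer (hx : x ∈ e.source) (hF : ∀ z ∈ e.source, F (e z) = f z)
    (hA : ∀ z, A (e z) = a z) (h : Two F A (e x) e.target) : Two f a x univ := by
  obtain ⟨U₁, s1, U₂, s2, a1, a2, b1, b2, c⟩ := h
  refine ⟨e.symm '' U₁, subset_univ _, e.symm '' U₂, subset_univ _,
    a1.image _ (e.continuousOn_symm.mono s1), a2.image _ (e.continuousOn_symm.mono s2),
    lt_of_image hx hF s1 b1, lt_of_image hx hF s2 b2, ?_⟩
  filter_upwards [e.continuousAt hx c, e.open_source.mem_nhds hx] with z hz hz' h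
  exact (hz (by rwa [hF x hx, hF z hz'])).imp
    (fun k => ⟨⟨e z, k.1, e.left_inv hz'⟩, hA z ▸ k.2⟩)
    fun k => ⟨⟨e z, k.1, e.left_inv hz'⟩, hA z ▸ k.2⟩

lemma frequently_transfer (hx : x ∈ e.source) {R : P → Prop} (h : ∃ᶠ p in 𝓝 (e x), R p) :
    ∃ᶠ z in 𝓝 x, z ∈ e.source ∧ R (e z) := by
  rw [← e.map_nhds_eq hx, frequently_map] at h
  exact (h.and_eventually (e.open_source.mem_nhds hx)).mono fun z hz => ⟨hz.2, hz.1⟩

lemma locConn_of_charts [LocallyConnectedSpace P]
    (h : ∀ x : X, ∃ e : OpenPartialHomeomorph X P, x ∈ e.source) : LocallyConnectedSpace X := by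
  choose e he using h
  let : ChartedSpace P X := ⟨range e, e, he, fun x => ⟨x, rfl⟩⟩
  exact ChartedSpace.locallyConnectedSpace P X

/-- a chart of the zero set of the first component of an ambient chart -/
lemma exists_sub {w : X → ℝ} (G : OpenPartialHomeomorph X (ℝ × P)) (hG : ∀ y, (G y).1 = w y)
    (x : {y | w y = 0}) : ∃ e : OpenPartialHomeomorph {y | w y = 0} P,
      (∀ y, e y = (G y).2) ∧ ∀ y, y ∈ e.source ↔ y.1 ∈ G.source := by
  classical
  have h1 : ∀ p, (0, p) ∈ G.target → w (G.symm (0, p)) = 0 := fun p hp => by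
    rw [← hG, G.right_inv hp]
  have h2 : ∀ y : {y | w y = 0}, (0, (G y).2) = G y := fun y => Prod.ext (by rw [hG, y.2]) rfl
  let g : P → {y | w y = 0} := fun p =>
    if h : (0, p) ∈ G.target then ⟨G.symm (0, p), h1 p h⟩ else x
  have h3 : ∀ p, (0, p) ∈ G.target → (g p).1 = G.symm (0, p) := fun p hp => by
    simp only [g, dif_pos hp]
  have h4 : ∀ y : {y | w y = 0}, y.1 ∈ G.source → (0, (G y).2) ∈ G.target := fun y hy => by
    rw [h2]; exact G.map_source hy
  have c : Continuous fun p : P => ((0 : ℝ), p) := by fun_prop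
  refine ⟨{ toFun := fun y => (G y).2
            invFun := g
            source := {y | y.1 ∈ G.source}
            target := {p | (0, p) ∈ G.target}
            map_source' := h4
            map_target' := fun p hp => ?_
            left_inv' := fun y hy => Subtype.ext ?_
            right_inv' := fun p hp => ?_
            open_source := G.open_source.preimage continuous_subtype_val
            open_target := G.open_target.preimage c
            continuousOn_toFun :=
              (G.continuousOn.comp continuous_subtype_val.continuousOn fun _ h => h).snd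
            continuousOn_invFun := ?_ }, fun _ => rfl, fun _ => Iff.rfl⟩
  · rw [mem_ofPred_eq, h3 p hp]
    exact G.map_target hp
  · rw [h3 _ (h4 y hy), h2, G.left_inv hy]
  · rw [h3 p hp, G.right_inv hp]
  · rw [IsInducing.subtypeVal.continuousOn_iff]
    exact (G.continuousOn_symm.comp c.continuousOn fun _ h => h).congr fun p hp => h3 p hp

end transfer

section lin

variable {P : Type*} [NormedAddCommGroup P] [NormedSpace ℝ P]

lemma one_lin (L : P →L[ℝ] ℝ) {p : P} {N : Set P} (hN : N ∈ 𝓝 p) : One L p N := by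
  obtain ⟨r, hr, h⟩ := Metric.mem_nhds_iff.1 hN
  refine ⟨ball p r ∩ {q | L p < L q}, fun q hq => h hq.1,
    ((convex_ball p r).inter (convex_halfSpace_gt L.toLinearMap.isLinear _)).isPreconnected,
    fun q hq => hq.2, ?_⟩
  filter_upwards [ball_mem_nhds p hr] with q hq h using ⟨hq, h⟩

lemma frequently_lin (L : P →L[ℝ] ℝ) {v : P} (hv : 0 < L v) (p : P) :
    ∃ᶠ q in 𝓝 p, L p < L q := by
  have c : Tendsto (fun t : ℝ => p + t • v) (𝓝[>] 0) (𝓝 p) :=
    (Continuous.tendsto' (by fun_prop) _ _ (by simp)).mono_left nhdsWithin_le_nhds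
  refine c.frequently (Eventually.frequently ?_)
  filter_upwards [self_mem_nhdsWithin] with t ht
  simpa using mul_pos ht hv

end lin

section label

variable {X : Type*} [TopologicalSpace X] [LocallyConnectedSpace X] {f a : X → ℝ} {x : X}
  {N : Set X} {Cr : Finset X}

/-- a level curve of a merging saddle stays on the same side of the saddle -/
theorem Loc.side (h : Loc f Cr) (hx : x ∈ Cr) (h2 : Two f a x N) (hm : Mer f x)
    (ha : Continuous a) : ∃ O ∈ 𝓝 x, ∀ c : ℝ → X, Continuous c →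
      (∀ t, f (c t) = f x ∧ c t ≠ x) → c 0 ∈ O → 0 < a (c 0) → ∀ t, c t ∈ O → 0 ≤ a (c t) := by
  obtain ⟨U₁, -, U₂, -, a1, a2, b1, b2, k⟩ := h2
  obtain ⟨y₁, h1⟩ := exists_subset_cp a1 b1
  obtain ⟨y₂, h2⟩ := exists_subset_cp a2 b2
  have hne : cp f (f x) y₁ ≠ cp f (f x) y₂ := fun e =>
    hm ⟨y₁, k.mono fun z hz h => (hz h).elim (fun k => h1 k.1) fun k => e ▸ h2 k.1⟩
  refine ⟨_, k.eventually_nhds, fun c hc hl h0 h0' t ht => ?_⟩
  have nc : ∀ s, c s ∉ Cr := fun s hs => (hl s).2 (h.inj hs hx (hl s).1)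
  have key : ∀ s, (∀ᶠ z in 𝓝 (c s), f x < f z → z ∈ cp f (f x) y₁) →
      c s ∈ closure (cp f (f x) y₁) := fun s hs => by
    refine mem_closure_iff_frequently.2
      (((mem_closure_iff_frequently.1 (h.clos _ (nc s))).and_eventually hs).mono fun z hz => ?_)
    exact hz.2 ((hl s).1 ▸ hz.1)
  have h3 : IsClopen {s | c s ∈ closure (cp f (f x) y₁)} := by
    refine ⟨isClosed_closure.preimage hc, isOpen_iff_mem_nhds.2 fun s hs => ?_⟩
    filter_upwards [hc.continuousAt (h.ev_of_closure hs fun _ => h.reg _ (nc s)).eventually_nhds]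
      with u hu using key u hu
  have h4 : c t ∈ closure (cp f (f x) y₁) := by
    have : t ∈ {s | c s ∈ closure (cp f (f x) y₁)} := by
      rw [h3.eq_univ ⟨0, key 0 ?_⟩]
      · trivial
      · filter_upwards [h0, ha.continuousAt.eventually (lt_mem_nhds h0')] with z hz hz' h
        exact (hz h).elim (fun k => h1 k.1) fun k => absurd hz' (not_lt.2 k.2.le)
    exact this
  by_contra h5
  obtain ⟨z, hz, hz'⟩ := mem_closure_iff_nhds.1 h4 _
    (inter_mem ht (ha.continuousAt.eventually (gt_mem_nhds (not_le.1 h5))))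
  rcases hz.1 (cp_subset hz') with k | k
  · exact lt_asymm k.2 hz.2
  · exact hne (cp_eq_of_mem hz' (h2 k.1))

end label

end Vale.Agent.P218UY
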